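import Mathlib

-- ▼ part R019/Defs
section

/-!
# rid 19 (S0025): shared definitions.

Good numbers `v` divide a sum of `s` divisors `e 0, ..., e (s-1)` of a fixed number `Q`.
-/

set_option autoImplicit false

namespace Crest.Agent.R019

open Finset

/-- subset product of a tuple -/
def xprod {n : ℕ} (P : Fin n → ℕ) (S : Finset (Fin n)) : ℕ := ∏ i ∈ S, P i

/-- number of pairs of subsets whose subset products are congruent mod `w` -/
def coll {n : ℕ} (P : Fin n → ℕ) (w : ℕ) : ℕ :=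
  ((Finset.univ : Finset (Finset (Fin n) × Finset (Fin n))).filter
    (fun p => xprod P p.1 ≡ xprod P p.2 [MOD w])).card

/-- What the number-theoretic core delivers and what the assembly consumes.
`s` = number of unit fractions used for one good numerator,
`Q` = the universal multiple, `good v` = the numerators which are allowed. -/
structure CoreData (s n Q : ℕ) (good : ℕ → Prop) : Prop where
  Qpos : 0 < Q
  good_odd : ∀ v, good v → Odd v
  good_rep : ∀ v, good v → ∃ e : Fin s → ℕ, (∀ j, e j ∣ Q) ∧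
    (∀ j, padicValNat 2 (e j) = 2 * j) ∧ v ∣ ∑ j, e j
  dense : ∀ x : ℕ, 2 ^ (n / 64) ≤ x → x ≤ 2 ^ (n / 4) →
    ∃ v, good v ∧ v ≤ x ∧ x < v + 2 ^ (n / 64)
  fin : ∀ q : ℕ, 1 ≤ q → q ≤ 2 ^ (n / 8) →
    ∃ t, 0 < t ∧ 4 ^ s ∣ t ∧ 1 < t * q ∧ good (t * q - 1)

end Crest.Agent.R019
end

-- ▼ part R019/Count
section

set_option autoImplicit false

namespace Crest.Agent.R019

open Finset

theorem card_prod_eq (Q : Finset ℕ) (hQ : ∀ p ∈ Q, p.Prime) (l N : ℕ) :
    ((Fintype.piFinset (fun _ : Fin l => Q)).filter (fun p => ∏ i, p i = N)).card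
      ≤ l.factorial := by
  classical
  rcases Finset.eq_empty_or_nonempty
    ((Fintype.piFinset (fun _ : Fin l => Q)).filter (fun p => ∏ i, p i = N)) with h0 | ⟨p0, hp0⟩
  · rw [h0]; simp
  have key : ∀ p ∈ (Fintype.piFinset (fun _ : Fin l => Q)).filter (fun p => ∏ i, p i = N),
      (List.ofFn p).Perm (Nat.primeFactorsList N) := by
    intro p hp
    rw [mem_filter, Fintype.mem_piFinset] at hp
    apply Nat.primeFactorsList_unique
    · rw [List.prod_ofFn]; exact hp.2
    · intro q hq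
      rw [List.mem_ofFn] at hq
      obtain ⟨i, rfl⟩ := hq
      exact hQ _ (hp.1 i)
  have hlen : (Nat.primeFactorsList N).length = l := by
    rw [← (key p0 hp0).length_eq]; simp
  calc ((Fintype.piFinset (fun _ : Fin l => Q)).filter (fun p => ∏ i, p i = N)).card
      ≤ ((Nat.primeFactorsList N).permutations.toFinset).card := by
        apply Finset.card_le_card_of_injOn (fun p => List.ofFn p)
        · intro p hp
          simp only [List.coe_toFinset, Set.mem_ofPred_eq, List.mem_permutations]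
          exact key p (by simpa using hp)
        · intro p _ q _ h
          exact List.ofFn_injective h
    _ ≤ (Nat.primeFactorsList N).permutations.length := List.toFinset_card_le _
    _ = l.factorial := by rw [List.length_permutations, hlen]

/-- C1: tuples of primes with product in a given residue class. -/
theorem count_tuples (Q : Finset ℕ) (hQ : ∀ p ∈ Q, p.Prime) (y : ℕ) (hy : ∀ p ∈ Q, p ≤ y)
    (l w : ℕ) (_hw : 0 < w) (u : ℕ) :
    ((Fintype.piFinset (fun _ : Fin l => Q)).filter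
      (fun p => ∏ i, p i ≡ u [MOD w])).card ≤ l.factorial * (y ^ l / w + 1) := by
  classical
  set A := (Fintype.piFinset (fun _ : Fin l => Q)).filter (fun p => ∏ i, p i ≡ u [MOD w]) with hA
  have h1 : A.card ≤ l.factorial * (A.image (fun p => ∏ i, p i)).card := by
    apply Finset.card_le_mul_card_image
    intro N hN
    refine le_trans (Finset.card_le_card ?_) (card_prod_eq Q hQ l N)
    intro p hp
    rw [mem_filter] at hp ⊢
    rw [hA, mem_filter] at hp
    exact ⟨hp.1.1, hp.2⟩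
  have h2 : (A.image (fun p => ∏ i, p i)).card ≤ y ^ l / w + 1 := by
    rw [← Finset.card_range (y ^ l / w + 1)]
    apply Finset.card_le_card_of_injOn (fun N => N / w)
    · intro N hN
      simp only [coe_image, Set.mem_image, mem_coe] at hN
      obtain ⟨p, hp, rfl⟩ := hN
      rw [hA, mem_filter, Fintype.mem_piFinset] at hp
      simp only [coe_range, Set.mem_Iio]
      apply Nat.lt_succ_of_le
      apply Nat.div_le_div_right
      calc ∏ i, p i ≤ ∏ _i : Fin l, y := Finset.prod_le_prod' (fun i _ => hy _ (hp.1 i))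
        _ = y ^ l := by simp
    · intro N hN M hM h
      simp only [coe_image, Set.mem_image, mem_coe] at hN hM
      obtain ⟨p, hp, rfl⟩ := hN
      obtain ⟨q, hq, rfl⟩ := hM
      rw [hA, mem_filter] at hp hq
      have h3 : (∏ i, p i) % w = (∏ i, q i) % w := hp.2.trans hq.2.symm
      simp only at h
      rw [← Nat.div_add_mod (∏ i, p i) w, ← Nat.div_add_mod (∏ i, q i) w, h, h3]
  exact h1.trans (Nat.mul_le_mul_left _ h2)

theorem card_small_sets (n m : ℕ) :
    ((univ : Finset (Finset (Fin n))).filter (fun T => T.card ≤ m)).card ≤ (n + 1) ^ m := by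
  classical
  induction m with
  | zero =>
    simp only [Nat.le_zero, card_eq_zero, pow_zero]
    have : (univ.filter (fun T : Finset (Fin n) => T = ∅)) = {∅} := by
      ext T; simp
    rw [this]; simp
  | succ m ih =>
    have hsub : (univ.filter (fun T : Finset (Fin n) => T.card ≤ m + 1)) ⊆
        (univ.filter (fun T : Finset (Fin n) => T.card ≤ m)) ∪
        Finset.image₂ (fun a T => insert a T) (univ : Finset (Fin n))
          (univ.filter (fun T : Finset (Fin n) => T.card ≤ m)) := by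
      intro T hT
      simp only [mem_filter, mem_univ, true_and] at hT
      rw [mem_union]
      by_cases h : T.card ≤ m
      · left; simpa using h
      · right
        have hTc : T.card = m + 1 := by omega
        have hne : T.Nonempty := by rw [← Finset.card_pos]; omega
        obtain ⟨a, ha⟩ := hne
        rw [Finset.mem_image₂]
        refine ⟨a, mem_univ _, T.erase a, ?_, Finset.insert_erase ha⟩
        simp only [mem_filter, mem_univ, true_and]
        rw [Finset.card_erase_of_mem ha]; omega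
    calc _ ≤ _ := Finset.card_le_card hsub
      _ ≤ _ := Finset.card_union_le _ _
      _ ≤ (n + 1) ^ m + n * (n + 1) ^ m := by
        gcongr
        calc _ ≤ _ := Finset.card_image₂_le _ _ _
          _ ≤ _ := by
            rw [Finset.card_univ, Fintype.card_fin]
            exact Nat.mul_le_mul_left _ ih
      _ = (n + 1) ^ (m + 1) := by ring

/-- pairs with small differences -/
theorem card_close_pairs (n l : ℕ) :
    ((univ : Finset (Finset (Fin n) × Finset (Fin n))).filter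
      (fun p => ¬ (l ≤ (p.1 \ p.2).card) ∧ ¬ (l ≤ (p.2 \ p.1).card))).card
      ≤ 2 ^ n * (n + 1) ^ (2 * l) := by
  classical
  have h1 : ((univ : Finset (Finset (Fin n) × Finset (Fin n))).filter
      (fun p => ¬ (l ≤ (p.1 \ p.2).card) ∧ ¬ (l ≤ (p.2 \ p.1).card))).card ≤
      ((univ : Finset (Finset (Fin n))) ×ˢ
        ((univ : Finset (Finset (Fin n))).filter (fun T => T.card ≤ 2 * l))).card := by
    apply Finset.card_le_card_of_injOn (fun p => (p.1, symmDiff p.1 p.2))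
    · intro p hp
      simp only [coe_filter, mem_univ, true_and, Set.mem_ofPred_eq] at hp
      simp only [coe_product, coe_univ, coe_filter, mem_univ, true_and, Set.mem_prod,
        Set.mem_univ, Set.mem_ofPred_eq]
      have : (symmDiff p.1 p.2).card ≤ (p.1 \ p.2).card + (p.2 \ p.1).card := by
        rw [symmDiff_def]; exact Finset.card_union_le _ _
      omega
    · intro p _ q _ h
      simp only [Prod.mk.injEq] at h
      obtain ⟨h1, h2⟩ := h
      rw [h1] at h2
      exact Prod.ext h1 (symmDiff_right_injective _ h2)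
  refine h1.trans ?_
  rw [Finset.card_product]
  have h2 : (univ : Finset (Finset (Fin n))).card = 2 ^ n := by simp
  rw [h2]
  exact Nat.mul_le_mul_left _ (card_small_sets n (2 * l))

/-- for a fixed pair of subsets with `l ≤ |S \ S'|`, few tuples collide -/
theorem count_pair (Q : Finset ℕ) (hQ : ∀ p ∈ Q, p.Prime) (y : ℕ) (hy : ∀ p ∈ Q, p ≤ y)
    (n l w : ℕ) (hw : 1 < w) (S S' : Finset (Fin n)) (hS : l ≤ (S \ S').card) :
    ((Fintype.piFinset (fun _ : Fin n => Q)).filter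
      (fun P => (∀ i, ¬ P i ∣ w) ∧ xprod P S ≡ xprod P S' [MOD w])).card
      ≤ Q.card ^ (n - l) * (l.factorial * (y ^ l / w + 1)) := by
  classical
  obtain ⟨T, hTS, hTc⟩ := Finset.exists_subset_card_eq hS
  set A := (Fintype.piFinset (fun _ : Fin n => Q)).filter
      (fun P => (∀ i, ¬ P i ∣ w) ∧ xprod P S ≡ xprod P S' [MOD w]) with hA
  set ρ : (Fin n → ℕ) → ({i // i ∉ T} → ℕ) := fun P i => P i.1 with hρ
  have h1 : A.card ≤ (l.factorial * (y ^ l / w + 1)) * (A.image ρ).card := by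
    apply Finset.card_le_mul_card_image
    intro g hg
    rw [Finset.mem_image] at hg
    obtain ⟨P0, hP0, rfl⟩ := hg
    rw [hA, mem_filter, Fintype.mem_piFinset] at hP0
    obtain ⟨hP0Q, hP0w, hP0c⟩ := hP0
    refine le_trans ?_ (count_tuples Q hQ y hy l w (by omega) (∏ i ∈ T, P0 i))
    apply Finset.card_le_card_of_injOn (fun P j => P (T.orderEmbOfFin hTc j))
    · intro P hP
      simp only [coe_filter, Set.mem_ofPred_eq] at hP
      obtain ⟨hPA, hPρ⟩ := hP
      rw [hA, mem_filter, Fintype.mem_piFinset] at hPA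
      obtain ⟨hPQ, hPw, hPc⟩ := hPA
      simp only [coe_filter, Set.mem_ofPred_eq, Fintype.mem_piFinset]
      refine ⟨fun j => hPQ _, ?_⟩
      have e1 : ∏ j : Fin l, P (T.orderEmbOfFin hTc j) = ∏ i ∈ T, P i := by
        conv_rhs => rw [← Finset.map_orderEmbOfFin_univ T hTc]
        rw [Finset.prod_map]; rfl
      rw [e1]
      have hoff : ∀ i, i ∉ T → P i = P0 i := fun i hi => congrFun hPρ ⟨i, hi⟩
      have hTS1 : T ⊆ S := hTS.trans Finset.sdiff_subset
      have hTS2 : ∀ i ∈ S', i ∉ T := fun i hi hiT => (Finset.mem_sdiff.mp (hTS hiT)).2 hi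
      have e2 : xprod P S' = xprod P0 S' :=
        Finset.prod_congr rfl (fun i hi => hoff i (hTS2 i hi))
      have e3 : xprod P S = (∏ i ∈ T, P i) * ∏ i ∈ S \ T, P0 i := by
        unfold xprod
        rw [← Finset.prod_sdiff hTS1, mul_comm]
        congr 1
        exact Finset.prod_congr rfl (fun i hi => hoff i (Finset.mem_sdiff.mp hi).2)
      have e4 : xprod P0 S = (∏ i ∈ T, P0 i) * ∏ i ∈ S \ T, P0 i := by
        unfold xprod
        rw [← Finset.prod_sdiff hTS1, mul_comm]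
      have hcop : Nat.gcd w (∏ i ∈ S \ T, P0 i) = 1 := by
        apply Nat.Coprime.prod_right
        intro i _
        exact ((Nat.Prime.coprime_iff_not_dvd (hQ _ (hP0Q i))).mpr (hP0w i)).symm
      have h5 : (∏ i ∈ T, P i) * ∏ i ∈ S \ T, P0 i ≡ (∏ i ∈ T, P0 i) * ∏ i ∈ S \ T, P0 i
          [MOD w] := by
        rw [← e3, ← e4]
        exact (hPc.trans (by rw [e2])).trans hP0c.symm
      exact Nat.ModEq.cancel_right_of_coprime hcop h5
    · intro P hP P' hP' h
      simp only [coe_filter, Set.mem_ofPred_eq] at hP hP'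
      funext i
      by_cases hi : i ∈ T
      · have : i ∈ Set.range (T.orderEmbOfFin hTc) := by
          rw [Finset.range_orderEmbOfFin]; exact hi
        obtain ⟨j, rfl⟩ := this
        exact congrFun h j
      · exact congrFun (hP.2.trans hP'.2.symm) ⟨i, hi⟩
  have h2 : (A.image ρ).card ≤ Q.card ^ (n - l) := by
    have : A.image ρ ⊆ Fintype.piFinset (fun _ : {i // i ∉ T} => Q) := by
      intro g hg
      rw [Finset.mem_image] at hg
      obtain ⟨P, hP, rfl⟩ := hg
      rw [hA, mem_filter, Fintype.mem_piFinset] at hP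
      rw [Fintype.mem_piFinset]
      exact fun i => hP.1 _
    refine (Finset.card_le_card this).trans ?_
    rw [Fintype.card_piFinset]
    simp only [prod_const]
    rw [Finset.card_univ, Fintype.card_subtype_compl]
    simp [hTc]
  calc A.card ≤ _ := h1
    _ ≤ (l.factorial * (y ^ l / w + 1)) * Q.card ^ (n - l) := Nat.mul_le_mul_left _ h2
    _ = _ := mul_comm _ _

/-- C2: average number of collisions. -/
theorem avg_coll (Q : Finset ℕ) (hQ : ∀ p ∈ Q, p.Prime) (y : ℕ) (hy : ∀ p ∈ Q, p ≤ y)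
    (n l w : ℕ) (hw : 1 < w) :
    ∑ P ∈ (Fintype.piFinset (fun _ : Fin n => Q)).filter (fun P => ∀ i, ¬ P i ∣ w), coll P w
      ≤ 4 ^ n * (Q.card ^ (n - l) * (l.factorial * (y ^ l / w + 1)))
        + 2 ^ n * (n + 1) ^ (2 * l) * Q.card ^ n := by
  classical
  set F := (Fintype.piFinset (fun _ : Fin n => Q)).filter (fun P => ∀ i, ¬ P i ∣ w) with hF
  have hswap : ∑ P ∈ F, coll P w = ∑ p : Finset (Fin n) × Finset (Fin n),
      (F.filter (fun P => xprod P p.1 ≡ xprod P p.2 [MOD w])).card := by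
    unfold coll
    simp_rw [Finset.card_filter]
    rw [Finset.sum_comm]
  rw [hswap]
  have hpt : ∀ p : Finset (Fin n) × Finset (Fin n),
      (F.filter (fun P => xprod P p.1 ≡ xprod P p.2 [MOD w])).card ≤
      Q.card ^ (n - l) * (l.factorial * (y ^ l / w + 1)) +
      (if ¬ (l ≤ (p.1 \ p.2).card) ∧ ¬ (l ≤ (p.2 \ p.1).card) then Q.card ^ n else 0) := by
    intro p
    rw [hF, Finset.filter_filter]
    by_cases h1 : l ≤ (p.1 \ p.2).card
    · exact (count_pair Q hQ y hy n l w hw p.1 p.2 h1).trans (Nat.le_add_right _ _)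
    by_cases h2 : l ≤ (p.2 \ p.1).card
    · refine le_trans (le_of_eq ?_)
        ((count_pair Q hQ y hy n l w hw p.2 p.1 h2).trans (Nat.le_add_right _ _))
      congr 1
      apply Finset.filter_congr
      intro P _
      exact and_congr_right (fun _ => ⟨Nat.ModEq.symm, Nat.ModEq.symm⟩)
    · rw [if_pos ⟨h1, h2⟩]
      refine le_trans ?_ (Nat.le_add_left _ _)
      refine (Finset.card_filter_le _ _).trans ?_
      rw [Fintype.card_piFinset]
      simp
  refine (Finset.sum_le_sum (fun p _ => hpt p)).trans ?_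
  rw [Finset.sum_add_distrib]
  apply Nat.add_le_add
  · rw [Finset.sum_const, smul_eq_mul]
    apply Nat.mul_le_mul_right
    rw [Finset.card_univ, Fintype.card_prod, Fintype.card_finset, Fintype.card_fin, ← mul_pow]
    norm_num
  · rw [← Finset.sum_filter, Finset.sum_const, smul_eq_mul]
    exact Nat.mul_le_mul_right _ (card_close_pairs n l)

end Crest.Agent.R019
end

-- ▼ part R019/Exist
section

set_option autoImplicit false

namespace Crest.Agent.R019

open Finset


/-- primes in `(n^2, n^60]` -/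
def QP (n : ℕ) : Finset ℕ := (Finset.Ioc (n ^ 2) (n ^ 60)).filter Nat.Prime

theorem mem_QP {n p : ℕ} : p ∈ QP n ↔ p.Prime ∧ n ^ 2 < p ∧ p ≤ n ^ 60 := by
  unfold QP; rw [mem_filter, mem_Ioc]; tauto

theorem QP_card (n : ℕ) (hn : 2 ≤ n) :
    (n : ℝ) ^ 60 / (200 * Real.log n) ≤ (QP n).card := by
  have hn' : (2 : ℝ) ≤ n := by exact_mod_cast hn
  have hlogn : 0 < Real.log n := Real.log_pos (by linarith)
  set y : ℝ := (n : ℝ) ^ 60 with hy
  have hy60 : (2 : ℝ) ^ 60 ≤ y := by rw [hy]; gcongr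
  have hlogy : Real.log y = 60 * Real.log n := by rw [hy, Real.log_pow]; norm_num
  have h1 := Chebyshev.pi_ge (n ^ 60)
  push_cast at h1
  rw [← hy, hlogy] at h1
  have h2 : Nat.primeCounting (n ^ 60) ≤ (QP n).card + (n ^ 2 + 1) := by
    rw [← Nat.primesLE_card_eq_primeCounting]
    calc (Nat.primesLE (n ^ 60)).card ≤ (QP n ∪ Finset.range (n ^ 2 + 1)).card := by
          apply Finset.card_le_card
          intro p hp
          rw [Nat.mem_primesLE] at hp
          rw [mem_union, mem_QP, mem_range]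
          by_cases h : n ^ 2 < p
          · left; exact ⟨hp.2, h, hp.1⟩
          · right; omega
      _ ≤ _ := Finset.card_union_le _ _
      _ = _ := by rw [Finset.card_range]
  have h2' : (Nat.primeCounting (n ^ 60) : ℝ) ≤ (QP n).card + ((n : ℝ) ^ 2 + 1) := by
    exact_mod_cast h2
  have hlog1 : Real.log (y + 1) ≤ y / 100 := by
    have hpos : 0 < y + 1 := by linarith [hy60]
    have h3 : Real.log (y + 1) = 2 * Real.log (Real.sqrt (y + 1)) := by
      rw [Real.log_sqrt hpos.le]; ring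
    have h4 : Real.log (Real.sqrt (y + 1)) ≤ Real.sqrt (y + 1) :=
      (Real.log_le_sub_one_of_pos (Real.sqrt_pos.mpr hpos)).trans (by linarith)
    have h5 : Real.sqrt (y + 1) ≤ y / 200 := by
      rw [Real.sqrt_le_left (by linarith [hy60, pow_pos (by norm_num : (0:ℝ) < 2) 60])]
      nlinarith [hy60]
    rw [h3]; linarith
  have hlogle : Real.log n ≤ n := (Real.log_le_sub_one_of_pos (by linarith)).trans (by linarith)
  have h6 : ((n : ℝ) ^ 2 + 1) * (60 * Real.log n) ≤ y / 100 := by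
    have : ((n : ℝ) ^ 2 + 1) ≤ 2 * (n : ℝ) ^ 2 := by nlinarith
    calc ((n : ℝ) ^ 2 + 1) * (60 * Real.log n) ≤ (2 * (n : ℝ) ^ 2) * (60 * n) := by gcongr
      _ = 120 * (n : ℝ) ^ 3 := by ring
      _ ≤ (2 : ℝ) ^ 57 / 100 * (n : ℝ) ^ 3 := by gcongr; norm_num
      _ ≤ (n : ℝ) ^ 57 / 100 * (n : ℝ) ^ 3 := by gcongr
      _ = y / 100 := by rw [hy]; ring
  have hlog2 : (0.69 : ℝ) < Real.log 2 := by linarith [Real.log_two_gt_d9]
  rw [div_le_iff₀ (by positivity)] at h1 ⊢
  nlinarith [hy60]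


theorem exists_avoid_tuple {α : Type*} [DecidableEq α] (Ω : Finset α) (W : Finset ℕ)
    (bad : ℕ → Finset α)
    (h : ∑ w ∈ W, (bad w).card ^ 10 < Ω.card ^ 10) :
    ∃ P : Fin 10 → α, (∀ t, P t ∈ Ω) ∧ ∀ w ∈ W, ∃ t, P t ∉ bad w := by
  by_contra hcon
  push Not at hcon
  have hsub : Fintype.piFinset (fun _ : Fin 10 => Ω) ⊆
      W.biUnion (fun w => Fintype.piFinset (fun _ : Fin 10 => bad w)) := by
    intro P hP
    rw [Fintype.mem_piFinset] at hP
    obtain ⟨w, hw, hb⟩ := hcon P hP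
    rw [mem_biUnion]
    exact ⟨w, hw, by rw [Fintype.mem_piFinset]; exact hb⟩
  have h1 := (Finset.card_le_card hsub).trans Finset.card_biUnion_le
  simp only [Fintype.card_piFinset, prod_const, card_univ, Fintype.card_fin] at h1
  omega

theorem sum_inv_cube (N : ℕ) (hN : 1 ≤ N) :
    ∑ w ∈ Finset.Icc 2 N, (1 : ℝ) / (w : ℝ) ^ 3 ≤ 1 / 2 * (1 - 1 / N) := by
  induction N, hN using Nat.le_induction with
  | base => simp
  | succ N hN ih =>
    rw [Finset.sum_Icc_succ_top (by omega)]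
    have hN' : (1 : ℝ) ≤ N := by exact_mod_cast hN
    have : (1 : ℝ) / ((N + 1 : ℕ) : ℝ) ^ 3 ≤ 1 / 2 * (1 / N - 1 / ((N + 1 : ℕ) : ℝ)) := by
      push_cast
      rw [div_sub_div _ _ (by positivity) (by positivity), ← mul_div_assoc,
        div_le_div_iff₀ (by positivity) (by positivity)]
      nlinarith [pow_pos (by linarith : (0 : ℝ) < N + 1) 2]
    push_cast at this ⊢
    linarith

theorem sum_inv_cube_lt (a N : ℕ) (ha : 2 ≤ a) :
    ∑ w ∈ Finset.Icc a N, (1 : ℝ) / (w : ℝ) ^ 3 < 1 := by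
  have h1 : ∑ w ∈ Finset.Icc a N, (1 : ℝ) / (w : ℝ) ^ 3 ≤
      ∑ w ∈ Finset.Icc 2 (N + 1), (1 : ℝ) / (w : ℝ) ^ 3 := by
    apply Finset.sum_le_sum_of_subset_of_nonneg
    · intro w hw
      rw [mem_Icc] at hw ⊢
      omega
    · intro i _ _; positivity
  have h2 := sum_inv_cube (N + 1) (by omega)
  have h3 : (0 : ℝ) < 1 / ((N + 1 : ℕ) : ℝ) := by positivity
  linarith


/-- choice of the number of primes used for the modulus `w` -/
theorem choose_l (n w : ℕ) (hn : 1000 ≤ n) (hw1 : n / 200 ≤ w) (hw2 : w ≤ 2 ^ (n / 4)) :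
    ∃ l, 1 ≤ l ∧ l ≤ n ∧ w ≤ (n ^ 60) ^ l ∧ (n ^ 4) ^ (l - 1) ≤ w ∧
      (l = 1 ∨ (n ^ 30) ^ l ≤ w) := by
  have hw5 : 5 ≤ w := le_trans (by omega) hw1
  have hy1 : 1 < n ^ 60 := Nat.one_lt_pow (by norm_num) (by omega)
  have hl1 : 1 ≤ Nat.clog (n ^ 60) w := Nat.clog_pos hy1 (by omega)
  have hpow : w ≤ (n ^ 60) ^ (Nat.clog (n ^ 60) w) := Nat.le_pow_clog hy1 w
  have hlt : (n ^ 60) ^ (Nat.clog (n ^ 60) w - 1) < w := Nat.pow_pred_clog_lt_self hy1 (by omega)
  set l := Nat.clog (n ^ 60) w with hl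
  refine ⟨l, hl1, ?_, hpow, ?_, ?_⟩
  · have h2 : 2 ^ (l - 1) < 2 ^ (n / 4) := by
      calc 2 ^ (l - 1) ≤ (n ^ 60) ^ (l - 1) := Nat.pow_le_pow_left (by omega) _
        _ < w := hlt
        _ ≤ _ := hw2
    have h3 : l - 1 < n / 4 := (Nat.pow_lt_pow_iff_right (by norm_num)).mp h2
    omega
  · refine le_trans ?_ hlt.le
    apply Nat.pow_le_pow_left
    exact Nat.pow_le_pow_right (by omega) (by norm_num)
  · by_cases h1 : l = 1
    · left; exact h1
    · right
      refine le_trans ?_ hlt.le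
      rw [← pow_mul, ← pow_mul]
      apply Nat.pow_le_pow_right (by omega)
      omega

theorem param_ineq (n w q : ℕ) (hn : 1000 ≤ n) (hq : 0 < q)
    (hlog : 1600 * Real.log n ≤ (n : ℝ) ^ (1 / 10 : ℝ))
    (h2n : 2 * n ^ 4 * 2 ^ (n / 4) * 2 ^ (n / 4) ≤ 2 ^ n)
    (hqc : (n : ℝ) ^ 60 / (200 * Real.log n) ≤ q)
    (hw1 : n / 200 ≤ w) (hw2 : w ≤ 2 ^ (n / 4)) :
    ∃ l, l ≤ n ∧
      ((4 ^ n * (q ^ (n - l) * (l.factorial * ((n ^ 60) ^ l / w + 1)))
        + 2 ^ n * (n + 1) ^ (2 * l) * q ^ n : ℕ) : ℝ) ≤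
      4 ^ n * (q : ℝ) ^ n * (w : ℝ) ^ (-(9 / 10) : ℝ) := by
  obtain ⟨l, hl1, hln, hwy, hn4, hcase⟩ := choose_l n w hn hw1 hw2
  refine ⟨l, hln, ?_⟩
  have hw5 : 5 ≤ w := le_trans (by omega) hw1
  have hwpos : (0 : ℝ) < w := by exact_mod_cast (by omega : 0 < w)
  have hw1' : (1 : ℝ) ≤ w := by exact_mod_cast (by omega : 1 ≤ w)
  have hqpos : (0 : ℝ) < q := by exact_mod_cast hq
  have hn' : (1000 : ℝ) ≤ n := by exact_mod_cast hn
  have hlogn : 0 < Real.log n := Real.log_pos (by linarith)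
  have hlogle : Real.log n ≤ n := (Real.log_le_sub_one_of_pos (by linarith)).trans (by linarith)
  set lam : ℝ := 200 * Real.log n with hlam
  have hlampos : 0 < lam := by positivity
  have hyq : (n : ℝ) ^ 60 ≤ q * lam := by
    rwa [div_le_iff₀ hlampos] at hqc
  -- the main claim
  have hclaim : 4 * ((l : ℝ) * lam) ^ l ≤ (w : ℝ) ^ (1 / 10 : ℝ) := by
    rcases hcase with rfl | h30
    · simp only [Nat.cast_one, one_mul, pow_one]
      have hw400 : (n : ℝ) / 400 ≤ w := by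
        have : n ≤ 400 * w := by omega
        have : (n : ℝ) ≤ 400 * w := by exact_mod_cast this
        linarith
      calc 4 * lam = 1600 * Real.log n / 2 := by rw [hlam]; ring
        _ ≤ (n : ℝ) ^ (1 / 10 : ℝ) / 2 := by gcongr
        _ ≤ ((n : ℝ) / 400) ^ (1 / 10 : ℝ) := by
          rw [Real.div_rpow (by positivity) (by norm_num)]
          gcongr
          calc (400 : ℝ) ^ (1 / 10 : ℝ) ≤ (2 ^ (10 : ℕ)) ^ (1 / 10 : ℝ) := by
                gcongr; norm_num
            _ = 2 := by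
              rw [← Real.rpow_natCast, ← Real.rpow_mul (by norm_num)]; norm_num
        _ ≤ (w : ℝ) ^ (1 / 10 : ℝ) := by gcongr
    · have h3 : ((n : ℝ) ^ 3) ^ l ≤ (w : ℝ) ^ (1 / 10 : ℝ) := by
        have e : ((n : ℝ) ^ 3) ^ l = (((n : ℝ) ^ 30) ^ l) ^ (1 / 10 : ℝ) := by
          rw [← pow_mul, ← pow_mul, ← Real.rpow_natCast, ← Real.rpow_natCast, ← Real.rpow_mul (by positivity)]
          congr 1
          push_cast
          ring
        rw [e]
        gcongr
        exact_mod_cast h30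
      refine le_trans ?_ h3
      have h4 : (4 : ℝ) ≤ 4 ^ l := by
        calc (4 : ℝ) = 4 ^ 1 := by norm_num
          _ ≤ 4 ^ l := pow_le_pow_right₀ (by norm_num) hl1
      calc 4 * ((l : ℝ) * lam) ^ l ≤ 4 ^ l * ((l : ℝ) * lam) ^ l := by gcongr
        _ = (4 * ((l : ℝ) * lam)) ^ l := by rw [← mul_pow]
        _ ≤ ((n : ℝ) ^ 3) ^ l := by
          gcongr
          have hl' : (l : ℝ) ≤ n := by exact_mod_cast hln
          calc 4 * ((l : ℝ) * lam) ≤ 4 * ((n : ℝ) * (200 * n)) := by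
                rw [hlam]; gcongr
            _ = 800 * (n : ℝ) ^ 2 := by ring
            _ ≤ n * (n : ℝ) ^ 2 := by gcongr; linarith
            _ = (n : ℝ) ^ 3 := by ring
  -- first part
  have hA : (l.factorial : ℝ) * ((((n ^ 60) ^ l / w : ℕ) : ℝ) + 1) ≤
      (q : ℝ) ^ l * (1 / 2 * (w : ℝ) ^ (-(9 / 10) : ℝ)) := by
    have hf : (l.factorial : ℝ) ≤ (l : ℝ) ^ l := by exact_mod_cast Nat.factorial_le_pow l
    have hd : (((n ^ 60) ^ l / w : ℕ) : ℝ) ≤ ((n : ℝ) ^ 60) ^ l / w := by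
      have := @Nat.cast_div_le ℝ _ _ _ ((n ^ 60) ^ l) w
      push_cast at this ⊢
      exact this
    have hd2 : (1 : ℝ) ≤ ((n : ℝ) ^ 60) ^ l / w := by
      rw [le_div_iff₀ hwpos, one_mul]
      exact_mod_cast hwy
    have hw9 : (w : ℝ) ^ (-(9 / 10) : ℝ) = (w : ℝ) ^ (1 / 10 : ℝ) / w := by
      rw [← Real.rpow_sub_one hwpos.ne']; norm_num
    calc (l.factorial : ℝ) * ((((n ^ 60) ^ l / w : ℕ) : ℝ) + 1)
        ≤ (l : ℝ) ^ l * (2 * (((n : ℝ) ^ 60) ^ l / w)) := by
          gcongr; linarith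
      _ ≤ (l : ℝ) ^ l * (2 * ((q * lam) ^ l / w)) := by gcongr
      _ = (q : ℝ) ^ l * (1 / 2 * ((4 * ((l : ℝ) * lam) ^ l) / w)) := by
          rw [mul_pow, mul_pow]; ring
      _ ≤ (q : ℝ) ^ l * (1 / 2 * ((w : ℝ) ^ (1 / 10 : ℝ) / w)) := by gcongr
      _ = _ := by rw [hw9]
  -- second part
  have hB : (2 : ℝ) ^ n * ((n : ℝ) + 1) ^ (2 * l) ≤ 4 ^ n * (1 / 2 * (w : ℝ) ^ (-(9 / 10) : ℝ)) := by
    have hN : 2 * (n + 1) ^ (2 * l) * w ≤ 2 ^ n := by
      have e1 : (n + 1) ^ (2 * l) ≤ n ^ 4 * (n ^ 4) ^ (l - 1) := by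
        have : n ^ 4 * (n ^ 4) ^ (l - 1) = (n ^ 2) ^ (2 * l) := by
          rw [← pow_succ', ← pow_mul, ← pow_mul]
          congr 1
          omega
        rw [this]
        apply Nat.pow_le_pow_left
        nlinarith
      calc 2 * (n + 1) ^ (2 * l) * w ≤ 2 * (n ^ 4 * (n ^ 4) ^ (l - 1)) * w := by gcongr
        _ ≤ 2 * (n ^ 4 * w) * w := by gcongr
        _ ≤ 2 * (n ^ 4 * 2 ^ (n / 4)) * 2 ^ (n / 4) := by gcongr
        _ = 2 * n ^ 4 * 2 ^ (n / 4) * 2 ^ (n / 4) := by ring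
        _ ≤ 2 ^ n := h2n
    have hN' : 2 * ((n : ℝ) + 1) ^ (2 * l) * w ≤ 2 ^ n := by exact_mod_cast hN
    have hw9 : (w : ℝ)⁻¹ ≤ (w : ℝ) ^ (-(9 / 10) : ℝ) := by
      rw [← Real.rpow_neg_one]
      exact Real.rpow_le_rpow_of_exponent_le hw1' (by norm_num)
    have h4 : (4 : ℝ) ^ n = 2 ^ n * 2 ^ n := by rw [← mul_pow]; norm_num
    rw [h4]
    calc (2 : ℝ) ^ n * ((n : ℝ) + 1) ^ (2 * l)
        = 2 ^ n * ((2 * ((n : ℝ) + 1) ^ (2 * l) * w) * (1 / 2 * (w : ℝ)⁻¹)) := by
          field_simp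
      _ ≤ 2 ^ n * (2 ^ n * (1 / 2 * (w : ℝ) ^ (-(9 / 10) : ℝ))) := by gcongr
      _ = _ := by ring
  push_cast
  have hqn : (q : ℝ) ^ n = (q : ℝ) ^ (n - l) * (q : ℝ) ^ l := by
    rw [← pow_add]; congr 1; omega
  have hA' : ((l.factorial : ℝ) * ((((n ^ 60) ^ l / w : ℕ) : ℝ) + 1)) ≤
      (q : ℝ) ^ l * (1 / 2 * (w : ℝ) ^ (-(9 / 10) : ℝ)) := hA
  calc (4 : ℝ) ^ n * ((q : ℝ) ^ (n - l) * ((l.factorial : ℝ) * ((((n ^ 60) ^ l / w : ℕ) : ℝ) + 1)))
        + 2 ^ n * ((n : ℝ) + 1) ^ (2 * l) * (q : ℝ) ^ n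
      ≤ (4 : ℝ) ^ n * ((q : ℝ) ^ (n - l) * ((q : ℝ) ^ l * (1 / 2 * (w : ℝ) ^ (-(9 / 10) : ℝ))))
        + (4 ^ n * (1 / 2 * (w : ℝ) ^ (-(9 / 10) : ℝ))) * (q : ℝ) ^ n := by
        gcongr
    _ = 4 ^ n * (q : ℝ) ^ n * (w : ℝ) ^ (-(9 / 10) : ℝ) := by
        rw [hqn]; ring

/-- for a single family: few bad tuples for the modulus `w` -/
theorem bad_card (n w : ℕ) (hn : 1000 ≤ n) (hq : 0 < (QP n).card)
    (hlog : 1600 * Real.log n ≤ (n : ℝ) ^ (1 / 10 : ℝ))
    (h2n : 2 * n ^ 4 * 2 ^ (n / 4) * 2 ^ (n / 4) ≤ 2 ^ n)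
    (hw1 : n / 200 ≤ w) (hw2 : w ≤ 2 ^ (n / 4)) :
    ((((Fintype.piFinset (fun _ : Fin n => QP n)).filter
      (fun P => (∀ i, ¬ P i ∣ w) ∧
        (4 : ℝ) ^ n * (w : ℝ) ^ (-(3 / 5) : ℝ) < (coll P w : ℝ))).card : ℕ) : ℝ) ≤
      ((QP n).card : ℝ) ^ n * (w : ℝ) ^ (-(3 / 10) : ℝ) := by
  classical
  obtain ⟨l, hln, hl⟩ := param_ineq n w (QP n).card hn hq hlog h2n (QP_card n (by omega)) hw1 hw2
  have hw5 : 5 ≤ w := le_trans (by omega) hw1
  have hwpos : (0 : ℝ) < w := by exact_mod_cast (by omega : 0 < w)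
  set F := (Fintype.piFinset (fun _ : Fin n => QP n)).filter (fun P => ∀ i, ¬ P i ∣ w) with hF
  set B := (Fintype.piFinset (fun _ : Fin n => QP n)).filter
      (fun P => (∀ i, ¬ P i ∣ w) ∧
        (4 : ℝ) ^ n * (w : ℝ) ^ (-(3 / 5) : ℝ) < (coll P w : ℝ)) with hB
  have hBF : B ⊆ F := by
    intro P hP
    rw [hB, mem_filter] at hP
    rw [hF, mem_filter]
    exact ⟨hP.1, hP.2.1⟩
  have h1 := avg_coll (QP n) (fun p hp => (mem_QP.mp hp).1) (n ^ 60)
    (fun p hp => (mem_QP.mp hp).2.2) n l w (by omega)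
  rw [← hF] at h1
  have h2 : ((∑ P ∈ F, coll P w : ℕ) : ℝ) ≤
      4 ^ n * ((QP n).card : ℝ) ^ n * (w : ℝ) ^ (-(9 / 10) : ℝ) :=
    le_trans (by exact_mod_cast h1) hl
  have h3 : (B.card : ℝ) * ((4 : ℝ) ^ n * (w : ℝ) ^ (-(3 / 5) : ℝ)) ≤
      ((∑ P ∈ F, coll P w : ℕ) : ℝ) := by
    push_cast
    calc (B.card : ℝ) * ((4 : ℝ) ^ n * (w : ℝ) ^ (-(3 / 5) : ℝ))
        = ∑ _P ∈ B, ((4 : ℝ) ^ n * (w : ℝ) ^ (-(3 / 5) : ℝ)) := by
          rw [Finset.sum_const, nsmul_eq_mul]
      _ ≤ ∑ P ∈ B, (coll P w : ℝ) := by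
          apply Finset.sum_le_sum
          intro P hP
          rw [hB, mem_filter] at hP
          exact hP.2.2.le
      _ ≤ ∑ P ∈ F, (coll P w : ℝ) := by
          apply Finset.sum_le_sum_of_subset_of_nonneg hBF
          intro P _ _; positivity
  have h4 := h3.trans h2
  have h5 : (w : ℝ) ^ (-(9 / 10) : ℝ) = (w : ℝ) ^ (-(3 / 5) : ℝ) * (w : ℝ) ^ (-(3 / 10) : ℝ) := by
    rw [← Real.rpow_add hwpos]; norm_num
  rw [h5] at h4
  have h6 : (0 : ℝ) < (4 : ℝ) ^ n * (w : ℝ) ^ (-(3 / 5) : ℝ) := by positivity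
  have h7 : (B.card : ℝ) * ((4 : ℝ) ^ n * (w : ℝ) ^ (-(3 / 5) : ℝ)) ≤
      (((QP n).card : ℝ) ^ n * (w : ℝ) ^ (-(3 / 10) : ℝ)) *
        ((4 : ℝ) ^ n * (w : ℝ) ^ (-(3 / 5) : ℝ)) := by
    calc _ ≤ _ := h4
      _ = _ := by ring
  exact le_of_mul_le_mul_right h7 h6

theorem ev_log : ∃ N : ℕ, ∀ n : ℕ, N ≤ n → 1600 * Real.log n ≤ (n : ℝ) ^ (1 / 10 : ℝ) := by
  have h := (isLittleO_log_rpow_atTop (show (0 : ℝ) < 1 / 10 by norm_num)).bound
    (show (0 : ℝ) < 1 / 1600 by norm_num)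
  have h2 := tendsto_natCast_atTop_atTop (R := ℝ) |>.eventually h
  rw [Filter.eventually_atTop] at h2
  obtain ⟨N, hN⟩ := h2
  refine ⟨max N 1, fun n hn => ?_⟩
  have h3 := hN n (le_trans (le_max_left _ _) hn)
  have hn1 : (1 : ℝ) ≤ n := by exact_mod_cast le_trans (le_max_right _ _) hn
  rw [Real.norm_of_nonneg (Real.log_nonneg hn1),
    Real.norm_of_nonneg (Real.rpow_nonneg (by linarith) _)] at h3
  linarith

theorem ev_pow : ∃ N : ℕ, ∀ n : ℕ, N ≤ n → 2 * n ^ 4 * 2 ^ (n / 4) * 2 ^ (n / 4) ≤ 2 ^ n := by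
  have h : ∀ m : ℕ, 64 ≤ m → 2 * (4 * m + 4) ^ 4 ≤ 2 ^ (2 * m) := by
    intro m hm
    induction m, hm using Nat.le_induction with
    | base => norm_num
    | succ m hm ih =>
      have e : 2 ^ (2 * (m + 1)) = 4 * 2 ^ (2 * m) := by
        rw [show 2 * (m + 1) = 2 * m + 2 by ring, pow_add]; ring
      rw [e]
      have h1 : (4 * (m + 1) + 4) ^ 4 ≤ 4 * (4 * m + 4) ^ 4 := by
        have h2 : (4 * (m + 1) + 4) ^ 2 ≤ 2 * (4 * m + 4) ^ 2 := by nlinarith
        calc (4 * (m + 1) + 4) ^ 4 = ((4 * (m + 1) + 4) ^ 2) ^ 2 := by ring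
          _ ≤ (2 * (4 * m + 4) ^ 2) ^ 2 := Nat.pow_le_pow_left h2 2
          _ = 4 * (4 * m + 4) ^ 4 := by ring
      omega
  refine ⟨400, fun n hn => ?_⟩
  have h1 := h (n / 4) (by omega)
  have h2 : n ≤ 4 * (n / 4) + 4 := by omega
  calc 2 * n ^ 4 * 2 ^ (n / 4) * 2 ^ (n / 4)
      ≤ 2 * (4 * (n / 4) + 4) ^ 4 * 2 ^ (n / 4) * 2 ^ (n / 4) := by gcongr
    _ ≤ 2 ^ (2 * (n / 4)) * 2 ^ (n / 4) * 2 ^ (n / 4) := by gcongr
    _ = 2 ^ (4 * (n / 4)) := by rw [← pow_add, ← pow_add]; congr 1; ring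
    _ ≤ 2 ^ n := Nat.pow_le_pow_right (by norm_num) (by omega)

/-- C3: existence of ten families of primes such that for each modulus `w` one family has few
collisions. -/
theorem exists_families : ∃ n0 : ℕ, ∀ n ≥ n0, ∃ P : Fin 10 → Fin n → ℕ,
    (∀ t i, (P t i).Prime ∧ n ^ 2 < P t i ∧ P t i ≤ n ^ 60) ∧
    ∀ w : ℕ, n / 200 ≤ w → w ≤ 2 ^ (n / 4) →
      ∃ t, (∃ i, P t i ∣ w) ∨ (coll (P t) w : ℝ) ≤ 4 ^ n * (w : ℝ) ^ (-(3 / 5 : ℝ)) := by
  classical
  obtain ⟨N1, hN1⟩ := ev_log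
  obtain ⟨N2, hN2⟩ := ev_pow
  refine ⟨max (max N1 N2) 1000, fun n hn => ?_⟩
  have hn1 : N1 ≤ n := le_trans (le_trans (le_max_left _ _) (le_max_left _ _)) hn
  have hn2 : N2 ≤ n := le_trans (le_trans (le_max_right _ _) (le_max_left _ _)) hn
  have hn3 : 1000 ≤ n := le_trans (le_max_right _ _) hn
  have hn' : (1000 : ℝ) ≤ n := by exact_mod_cast hn3
  have hlogn : 0 < Real.log n := Real.log_pos (by linarith)
  have hq : 0 < (QP n).card := by
    have h1 := QP_card n (by omega)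
    have h2 : 0 < (n : ℝ) ^ 60 / (200 * Real.log n) := by positivity
    exact_mod_cast lt_of_lt_of_le h2 h1
  set Ω := Fintype.piFinset (fun _ : Fin n => QP n) with hΩ
  have hΩc : Ω.card = (QP n).card ^ n := by rw [hΩ, Fintype.card_piFinset]; simp
  set bad : ℕ → Finset (Fin n → ℕ) := fun w => Ω.filter
      (fun P => (∀ i, ¬ P i ∣ w) ∧
        (4 : ℝ) ^ n * (w : ℝ) ^ (-(3 / 5) : ℝ) < (coll P w : ℝ)) with hbad
  have hsum : ∑ w ∈ Finset.Icc (n / 200) (2 ^ (n / 4)), (bad w).card ^ 10 < Ω.card ^ 10 := by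
    have hreal : ((∑ w ∈ Finset.Icc (n / 200) (2 ^ (n / 4)), (bad w).card ^ 10 : ℕ) : ℝ)
        < ((Ω.card ^ 10 : ℕ) : ℝ) := by
      push_cast
      have hle : ∀ w ∈ Finset.Icc (n / 200) (2 ^ (n / 4)), ((bad w).card : ℝ) ^ 10 ≤
          (((QP n).card : ℝ) ^ n) ^ 10 * (1 / (w : ℝ) ^ 3) := by
        intro w hw
        rw [mem_Icc] at hw
        have hb := bad_card n w hn3 hq (hN1 n hn1) (hN2 n hn2) hw.1 hw.2
        have hw5 : 5 ≤ w := le_trans (by omega) hw.1
        have hwpos : (0 : ℝ) < w := by exact_mod_cast (by omega : 0 < w)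
        calc ((bad w).card : ℝ) ^ 10
            ≤ (((QP n).card : ℝ) ^ n * (w : ℝ) ^ (-(3 / 10) : ℝ)) ^ 10 := by gcongr
          _ = (((QP n).card : ℝ) ^ n) ^ 10 * ((w : ℝ) ^ (-(3 / 10) : ℝ)) ^ 10 := by
              rw [mul_pow]
          _ = _ := by
            congr 1
            rw [← Real.rpow_natCast, ← Real.rpow_mul hwpos.le, one_div, ← Real.rpow_natCast,
              ← Real.rpow_neg hwpos.le]
            norm_num
      calc ∑ w ∈ Finset.Icc (n / 200) (2 ^ (n / 4)), ((bad w).card : ℝ) ^ 10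
          ≤ ∑ w ∈ Finset.Icc (n / 200) (2 ^ (n / 4)),
              (((QP n).card : ℝ) ^ n) ^ 10 * (1 / (w : ℝ) ^ 3) := Finset.sum_le_sum hle
        _ = (((QP n).card : ℝ) ^ n) ^ 10 *
              ∑ w ∈ Finset.Icc (n / 200) (2 ^ (n / 4)), (1 / (w : ℝ) ^ 3) := by
            rw [← Finset.mul_sum]
        _ < (((QP n).card : ℝ) ^ n) ^ 10 * 1 := by
            have hqpos : (0 : ℝ) < (QP n).card := by exact_mod_cast hq
            have := sum_inv_cube_lt (n / 200) (2 ^ (n / 4)) (by omega)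
            gcongr
        _ = (Ω.card : ℝ) ^ 10 := by rw [mul_one, hΩc]; push_cast; rfl
    exact_mod_cast hreal
  obtain ⟨P, hP1, hP2⟩ := exists_avoid_tuple Ω (Finset.Icc (n / 200) (2 ^ (n / 4))) bad hsum
  refine ⟨P, fun t i => ?_, fun w hw1 hw2 => ?_⟩
  · have := hP1 t
    rw [hΩ, Fintype.mem_piFinset] at this
    exact mem_QP.mp (this i)
  · obtain ⟨t, ht⟩ := hP2 w (mem_Icc.mpr ⟨hw1, hw2⟩)
    refine ⟨t, ?_⟩
    by_contra hcon
    push Not at hcon
    apply ht
    rw [hbad]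
    simp only [mem_filter]
    exact ⟨hP1 t, hcon.1, hcon.2⟩

end Crest.Agent.R019
end

-- ▼ part R019/Fourier
section

set_option autoImplicit false

/-! Lemma C4 (finite Fourier analysis) of the row 19 blueprint. -/

namespace Crest.Agent.R019
open Finset

/-- Bilinear exponential sum estimate. -/
theorem norm_bilinear_sq_le {ι : Type*} [Fintype ι] [DecidableEq ι] {w : ℕ} [NeZero w]
    (u : ZMod w) (hu : IsUnit u) (X : ι → ZMod w) :
    ‖∑ S, ∑ S', (ZMod.stdAddChar (u * (X S * X S')) : ℂ)‖ ^ 2 ≤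
      w * ((univ.filter fun p : ι × ι => X p.1 = X p.2).card : ℝ) ^ 2 := by
  classical
  set ψ : AddChar (ZMod w) ℂ := ZMod.stdAddChar with hψ
  set g : ZMod w → ℂ := fun a => ∑ S', ψ (u * (a * X S')) with hg
  set r : ZMod w → ℕ := fun a => (univ.filter fun S => X S = a).card with hr
  set K : ℕ := (univ.filter fun p : ι × ι => X p.1 = X p.2).card with hK
  have h1 : ∑ S, ∑ S', ψ (u * (X S * X S')) = ∑ a, (r a : ℂ) * g a := by
    rw [← Finset.sum_fiberwise univ X]
    refine Finset.sum_congr rfl fun a _ => ?_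
    rw [Finset.sum_congr rfl (g := fun _ => g a), Finset.sum_const, nsmul_eq_mul]
    intro S hS
    rw [Finset.mem_filter] at hS
    simp [hg, hS.2]
  have hKr : (K : ℝ) = ∑ a, (r a : ℝ) ^ 2 := by
    have : K = ∑ a, r a * r a := by
      rw [hK, Finset.card_filter, Fintype.sum_prod_type]
      simp_rw [← Finset.card_filter]
      rw [← Finset.sum_fiberwise univ X]
      refine Finset.sum_congr rfl fun a _ => ?_
      rw [Finset.sum_congr rfl (g := fun _ => r a), Finset.sum_const, smul_eq_mul]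
      intro S hS
      rw [Finset.mem_filter] at hS
      simp only [hr, hS.2]
      congr 1
      ext T
      simp [eq_comm]
    rw [this]
    push_cast
    refine Finset.sum_congr rfl fun a _ => by ring
  have hgsum : ∑ a, ‖g a‖ ^ 2 = w * K := by
    have hc : ((∑ a, ‖g a‖ ^ 2 : ℝ) : ℂ) = (w : ℂ) * K := by
      push_cast
      have e1 : ∀ a, ((‖g a‖ : ℂ)) ^ 2 = ∑ p : ι × ι, ψ (a * (u * (X p.1 - X p.2))) := by
        intro a
        rw [← Complex.mul_conj', hg, map_sum, Finset.sum_mul_sum, Fintype.sum_prod_type]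
        refine Finset.sum_congr rfl fun S _ => Finset.sum_congr rfl fun S' _ => ?_
        rw [← AddChar.map_neg_eq_conj, ← AddChar.map_add_eq_mul]
        congr 1
        ring
      simp_rw [e1]
      rw [Finset.sum_comm]
      have e2 : ∀ p : ι × ι, ∑ a, ψ (a * (u * (X p.1 - X p.2))) =
          if X p.1 = X p.2 then (w : ℂ) else 0 := by
        intro p
        rw [AddChar.sum_mulShift _ (ZMod.isPrimitive_stdAddChar w)]
        have : u * (X p.1 - X p.2) = 0 ↔ X p.1 = X p.2 := by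
          rw [hu.mul_right_eq_zero, sub_eq_zero]
        simp [this, ZMod.card]
      simp_rw [e2]
      rw [← Finset.sum_filter, Finset.sum_const, nsmul_eq_mul, mul_comm]
    exact_mod_cast hc
  have h2 : ‖∑ a, (r a : ℂ) * g a‖ ≤ ∑ a, (r a : ℝ) * ‖g a‖ := by
    refine (norm_sum_le _ _).trans (Finset.sum_le_sum fun a _ => ?_)
    rw [norm_mul]
    simp
  calc ‖∑ S, ∑ S', ψ (u * (X S * X S'))‖ ^ 2 = ‖∑ a, (r a : ℂ) * g a‖ ^ 2 := by rw [h1]
    _ ≤ (∑ a, (r a : ℝ) * ‖g a‖) ^ 2 := by gcongr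
    _ ≤ (∑ a, (r a : ℝ) ^ 2) * ∑ a, ‖g a‖ ^ 2 := Finset.sum_mul_sq_le_sq_mul_sq _ _ _
    _ = w * (K : ℝ) ^ 2 := by rw [hgsum, ← hKr]; ring

theorem stdAddChar_reduce {v w g : ℕ} [NeZero v] [NeZero w] (hv : v = g * w) (a m : ℕ) :
    (ZMod.stdAddChar (((g * a : ℕ) : ZMod v) * (m : ZMod v)) : ℂ) =
      ZMod.stdAddChar ((a : ZMod w) * (m : ZMod w)) := by
  have hw : (w : ℂ) ≠ 0 := by exact_mod_cast NeZero.ne w
  have hg : (g : ℂ) ≠ 0 := by
    have : g ≠ 0 := by
      rintro rfl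
      exact NeZero.ne v (by simpa using hv)
    exact_mod_cast this
  have h1 := ZMod.stdAddChar_coe (N := v) (((g * a * m : ℕ) : ℤ))
  have h2 := ZMod.stdAddChar_coe (N := w) (((a * m : ℕ) : ℤ))
  have e1 : ((((g * a * m : ℕ) : ℤ)) : ZMod v) = ((g * a : ℕ) : ZMod v) * (m : ZMod v) := by
    push_cast; ring
  have e2 : ((((a * m : ℕ) : ℤ)) : ZMod w) = (a : ZMod w) * (m : ZMod w) := by
    push_cast; ring
  rw [e1] at h1
  rw [e2] at h2
  rw [h1, h2]
  congr 1
  have hvc : (v : ℂ) = g * w := by exact_mod_cast hv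
  rw [hvc]
  push_cast
  field_simp

/-- The sum over pairs attached to the frequency `h`. -/
noncomputable def Tsum {n v : ℕ} [NeZero v] (P : Fin n → ℕ) (c : ℕ) (h : ZMod v) : ℂ :=
  ∑ S : Finset (Fin n), ∑ S' : Finset (Fin n),
    ZMod.stdAddChar (h * ((c * (xprod P S * xprod P S') : ℕ) : ZMod v))

theorem norm_Tsum_le {n v : ℕ} [NeZero v] (P : Fin n → ℕ) (c : ℕ) (h : ZMod v) :
    ‖Tsum P c h‖ ≤ (4 : ℝ) ^ n := by
  unfold Tsum
  refine (norm_sum_le _ _).trans ?_
  have : ∀ S : Finset (Fin n), ‖∑ S' : Finset (Fin n),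
      (ZMod.stdAddChar (h * ((c * (xprod P S * xprod P S') : ℕ) : ZMod v)) : ℂ)‖ ≤ 2 ^ n := by
    intro S
    refine (norm_sum_le _ _).trans ?_
    simp [Fintype.card_finset]
  refine (Finset.sum_le_sum fun S _ => this S).trans ?_
  rw [Finset.sum_const, Finset.card_univ, Fintype.card_finset, Fintype.card_fin, nsmul_eq_mul]
  push_cast
  rw [← mul_pow]
  norm_num

theorem Tsum_sq_le {n v : ℕ} [NeZero v] (P : Fin n → ℕ) {c : ℕ} (hc : c.Coprime v) (h : ZMod v) :
    ‖Tsum P c h‖ ^ 2 ≤ (addOrderOf h : ℝ) * (coll P (addOrderOf h) : ℝ) ^ 2 := by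
  classical
  have hv0 : v ≠ 0 := NeZero.ne v
  have hh : h = (h.val : ZMod v) := (ZMod.natCast_zmod_val h).symm
  set g := v.gcd h.val with hg
  have hgpos : 0 < g := Nat.gcd_pos_of_pos_left _ (Nat.pos_of_ne_zero hv0)
  have hw : addOrderOf h = v / g := by
    conv_lhs => rw [hh]
    rw [ZMod.addOrderOf_coe _ hv0]
  set w := addOrderOf h with hwdef
  have hvg : v = g * w := by
    rw [hw]; exact (Nat.mul_div_cancel' (Nat.gcd_dvd_left _ _)).symm
  have hw0 : w ≠ 0 := by
    rintro h0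
    rw [h0] at hvg
    exact hv0 (by simpa using hvg)
  have : NeZero w := ⟨hw0⟩
  obtain ⟨a, ha⟩ : g ∣ h.val := Nat.gcd_dvd_right _ _
  have hcop : a.Coprime w := by
    have h1 := Nat.coprime_div_gcd_div_gcd (m := v) (n := h.val) hgpos
    rw [← hg, ← hw] at h1
    have h2 : h.val / g = a := by rw [ha]; exact Nat.mul_div_cancel_left _ hgpos
    rw [h2] at h1
    exact h1.symm
  have hcw : c.Coprime w := Nat.Coprime.coprime_dvd_right ⟨g, by rw [hvg]; ring⟩ hc
  have hu : IsUnit (((a * c : ℕ) : ZMod w)) := by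
    rw [ZMod.isUnit_iff_coprime]
    exact Nat.Coprime.mul_left hcop hcw
  have key : Tsum P c h = ∑ S : Finset (Fin n), ∑ S' : Finset (Fin n),
      (ZMod.stdAddChar (((a * c : ℕ) : ZMod w) *
        ((xprod P S : ZMod w) * (xprod P S' : ZMod w))) : ℂ) := by
    unfold Tsum
    refine Finset.sum_congr rfl fun S _ => Finset.sum_congr rfl fun S' _ => ?_
    have e : h = ((g * a : ℕ) : ZMod v) := by rw [← ha]; exact hh
    conv_lhs => rw [e]
    rw [stdAddChar_reduce hvg]
    congr 1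
    push_cast
    ring
  rw [key]
  refine (norm_bilinear_sq_le _ hu (fun S : Finset (Fin n) => (xprod P S : ZMod w))).trans ?_
  have : (univ.filter fun p : Finset (Fin n) × Finset (Fin n) =>
      (xprod P p.1 : ZMod w) = (xprod P p.2 : ZMod w)).card = coll P w := by
    unfold coll
    congr 1
    ext p
    simp [ZMod.natCast_eq_natCast_iff]
  rw [this]

theorem sum_inv_cube_lt_one (v : ℕ) [NeZero v] :
    ∑ h ∈ (univ.erase (0 : ZMod v)), 1 / ((addOrderOf h : ℝ)) ^ 3 < 1 := by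
  classical
  have hv0 : 0 < v := Nat.pos_of_ne_zero (NeZero.ne v)
  have hmap : ∀ h ∈ (univ.erase (0 : ZMod v)), addOrderOf h ∈ Finset.Ico 2 (v + 1) := by
    intro h hh
    rw [Finset.mem_erase] at hh
    rw [Finset.mem_Ico]
    have h1 : addOrderOf h ≠ 1 := by
      rw [Ne, AddMonoid.addOrderOf_eq_one_iff]; exact hh.1
    have h2 : addOrderOf h ≤ v := by
      have := addOrderOf_le_card_univ (x := h)
      rwa [ZMod.card] at this
    have h3 : 0 < addOrderOf h := addOrderOf_pos h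
    omega
  rw [← Finset.sum_fiberwise_of_maps_to hmap]
  have hb : ∀ w ∈ Finset.Ico 2 (v + 1),
      ∑ h ∈ (univ.erase (0 : ZMod v)) with addOrderOf h = w, 1 / ((addOrderOf h : ℝ)) ^ 3 ≤
        1 / ((w : ℝ) - 1) - 1 / (w : ℝ) := by
    intro w hw
    rw [Finset.mem_Ico] at hw
    have hw2 : (2 : ℝ) ≤ w := by exact_mod_cast hw.1
    have hc : ((univ.erase (0 : ZMod v)).filter fun h => addOrderOf h = w).card ≤ w := by
      refine le_trans (Finset.card_le_card ?_)
        (IsAddCyclic.card_nsmul_eq_zero_le (α := ZMod v) (n := w) (by omega))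
      intro h hh
      rw [Finset.mem_filter] at hh ⊢
      refine ⟨Finset.mem_univ _, ?_⟩
      rw [← hh.2]
      exact addOrderOf_nsmul_eq_zero h
    have hs : ∑ h ∈ (univ.erase (0 : ZMod v)) with addOrderOf h = w,
        1 / ((addOrderOf h : ℝ)) ^ 3 =
        ((univ.erase (0 : ZMod v)).filter fun h => addOrderOf h = w).card * (1 / (w : ℝ) ^ 3) := by
      rw [Finset.sum_congr rfl (g := fun _ => 1 / (w : ℝ) ^ 3), Finset.sum_const, nsmul_eq_mul]
      intro h hh
      rw [Finset.mem_filter] at hh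
      rw [hh.2]
    rw [hs]
    have hw0 : (0 : ℝ) < w := by linarith
    have hw1 : (0 : ℝ) < (w : ℝ) - 1 := by linarith
    calc (((univ.erase (0 : ZMod v)).filter fun h => addOrderOf h = w).card : ℝ) *
          (1 / (w : ℝ) ^ 3) ≤ w * (1 / (w : ℝ) ^ 3) := by
          gcongr
      _ = 1 / (w : ℝ) ^ 2 := by field_simp
      _ ≤ 1 / (((w : ℝ) - 1) * w) := by
          apply one_div_le_one_div_of_le (by positivity)
          nlinarith
      _ = 1 / ((w : ℝ) - 1) - 1 / (w : ℝ) := by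
          field_simp
          ring
  refine lt_of_le_of_lt (Finset.sum_le_sum hb) ?_
  have htel : ∀ m : ℕ, ∑ w ∈ Finset.Ico 2 (m + 2), (1 / ((w : ℝ) - 1) - 1 / (w : ℝ)) =
      1 - 1 / ((m : ℝ) + 1) := by
    intro m
    induction m with
    | zero => simp
    | succ k ih =>
      rw [Finset.sum_Ico_succ_top (by omega), ih]
      push_cast
      have h1 : (0 : ℝ) < (k : ℝ) + 1 := by positivity
      have h2 : ((k : ℝ) + 2 - 1) = (k : ℝ) + 1 := by ring
      rw [h2]
      ring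
  obtain ⟨m, rfl⟩ : ∃ m, v = m + 1 := ⟨v - 1, by omega⟩
  rw [htel m]
  have : (0 : ℝ) < 1 / ((m : ℝ) + 1) := by positivity
  linarith

/-- Lemma C4: solvability of `v ∣ ∑ c_{t,j} x_t(S_{t,j}) x_t(S'_{t,j})`. -/
theorem fourier {κ n v : ℕ} (P : Fin κ → Fin n → ℕ) (c : Fin κ → Fin 30 → ℕ) (hv : 0 < v)
    (hc : ∀ t j, (c t j).Coprime v)
    (hcoll : ∀ w, w ∣ v → 1 < w → ∃ t, (coll (P t) w) ^ 5 * w ^ 3 ≤ (4 ^ n) ^ 5) :
    ∃ S S' : Fin κ → Fin 30 → Finset (Fin n),
      v ∣ ∑ t, ∑ j, c t j * (xprod (P t) (S t j) * xprod (P t) (S' t j)) := by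
  classical
  have : NeZero v := ⟨hv.ne'⟩
  by_contra hcon
  push Not at hcon
  -- index type and configurations
  let I := Fin κ × Fin 30
  let Ω := I → Finset (Fin n) × Finset (Fin n)
  let Φ : Ω → ℕ := fun ω => ∑ i : I, c i.1 i.2 * (xprod (P i.1) (ω i).1 * xprod (P i.1) (ω i).2)
  have hΦ : ∀ ω : Ω, ((Φ ω : ℕ) : ZMod v) ≠ 0 := by
    intro ω h0
    rw [ZMod.natCast_eq_zero_iff] at h0
    refine hcon (fun t j => (ω (t, j)).1) (fun t j => (ω (t, j)).2) ?_
    have : Φ ω = ∑ t, ∑ j, c t j * (xprod (P t) (ω (t, j)).1 * xprod (P t) (ω (t, j)).2) := by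
      simp only [Φ, I, Fintype.sum_prod_type]
    rwa [← this]
  let F : ZMod v → ℂ := fun h => ∏ i : I, Tsum (P i.1) (c i.1 i.2) h
  have hF : ∀ h, F h = ∑ ω : Ω, (ZMod.stdAddChar (h * ((Φ ω : ℕ) : ZMod v)) : ℂ) := by
    intro h
    have h1 : ∀ i : I, Tsum (P i.1) (c i.1 i.2) h = ∑ p : Finset (Fin n) × Finset (Fin n),
        (ZMod.stdAddChar (h * ((c i.1 i.2 * (xprod (P i.1) p.1 * xprod (P i.1) p.2) : ℕ) :
          ZMod v)) : ℂ) := by
      intro i
      unfold Tsum
      rw [Fintype.sum_prod_type]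
    simp only [F]
    simp_rw [h1]
    rw [Fintype.prod_sum]
    refine Finset.sum_congr rfl fun ω _ => ?_
    simp only [Φ]
    rw [Nat.cast_sum, Finset.mul_sum]
    induction (univ : Finset I) using Finset.induction_on with
    | empty => simp
    | insert a s ha ih =>
      rw [Finset.prod_insert ha, Finset.sum_insert ha, AddChar.map_add_eq_mul, ih]
  have hsum : ∑ h, F h = 0 := by
    simp_rw [hF]
    rw [Finset.sum_comm]
    refine Finset.sum_eq_zero fun ω _ => ?_
    rw [AddChar.sum_mulShift _ (ZMod.isPrimitive_stdAddChar v), if_neg (hΦ ω)]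
    simp
  -- the zero frequency
  set M : ℝ := (4 : ℝ) ^ n with hM
  have hMpos : 0 < M := by positivity
  have hF0 : F 0 = ((M ^ (30 * κ) : ℝ) : ℂ) := by
    have : ∀ i : I, Tsum (P i.1) (c i.1 i.2) (0 : ZMod v) = (M : ℂ) := by
      intro i
      unfold Tsum
      simp only [zero_mul, AddChar.map_zero_eq_one, Finset.sum_const, Finset.card_univ,
        Fintype.card_finset, Fintype.card_fin, nsmul_eq_mul, mul_one]
      rw [hM]
      push_cast
      rw [← mul_pow]
      norm_num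
    simp only [F, this, Finset.prod_const, Finset.card_univ, I, Fintype.card_prod,
      Fintype.card_fin]
    push_cast
    rw [mul_comm κ 30]
  -- the other frequencies
  have hFh : ∀ h : ZMod v, h ≠ 0 → ‖F h‖ ≤ M ^ (30 * κ) * (1 / ((addOrderOf h : ℝ)) ^ 3) := by
    intro h hh
    set w := addOrderOf h with hw
    have hw1 : 1 < w := by
      have h1 : w ≠ 1 := by rw [hw, Ne, AddMonoid.addOrderOf_eq_one_iff]; exact hh
      have h3 : 0 < w := addOrderOf_pos h
      omega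
    have hwv : w ∣ v := by
      have := addOrderOf_dvd_card (x := h)
      rwa [ZMod.card] at this
    obtain ⟨t, ht⟩ := hcoll w hwv hw1
    have hwpos : (0 : ℝ) < w := by exact_mod_cast (by omega : 0 < w)
    have hT : ∀ j, ‖Tsum (P t) (c t j) h‖ ^ 10 ≤ M ^ 10 / w := by
      intro j
      have h1 := Tsum_sq_le (P t) (hc t j) h
      rw [← hw] at h1
      have h2 : ((coll (P t) w : ℝ)) ^ 5 * (w : ℝ) ^ 3 ≤ M ^ 5 := by
        rw [hM]; exact_mod_cast ht
      rw [le_div_iff₀ hwpos]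
      calc ‖Tsum (P t) (c t j) h‖ ^ 10 * w = (‖Tsum (P t) (c t j) h‖ ^ 2) ^ 5 * w := by ring
        _ ≤ ((w : ℝ) * (coll (P t) w : ℝ) ^ 2) ^ 5 * w := by gcongr
        _ = ((coll (P t) w : ℝ) ^ 5 * (w : ℝ) ^ 3) ^ 2 := by ring
        _ ≤ (M ^ 5) ^ 2 := by gcongr
        _ = M ^ 10 := by ring
    have hprod : ∏ j : Fin 30, ‖Tsum (P t) (c t j) h‖ ≤ M ^ 30 * (1 / (w : ℝ) ^ 3) := by
      have h1 : (∏ j : Fin 30, ‖Tsum (P t) (c t j) h‖) ^ 10 ≤ (M ^ 30 * (1 / (w : ℝ) ^ 3)) ^ 10 := by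
        rw [← Finset.prod_pow]
        calc ∏ j : Fin 30, ‖Tsum (P t) (c t j) h‖ ^ 10 ≤ ∏ _j : Fin 30, (M ^ 10 / w) :=
              Finset.prod_le_prod (fun j _ => by positivity) (fun j _ => hT j)
          _ = (M ^ 10 / w) ^ 30 := by
              rw [Finset.prod_const, Finset.card_univ, Fintype.card_fin]
          _ = (M ^ 30 * (1 / (w : ℝ) ^ 3)) ^ 10 := by ring
      exact (pow_le_pow_iff_left₀ (Finset.prod_nonneg fun j _ => norm_nonneg _) (by positivity)
        (by norm_num)).1 h1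
    simp only [F]
    rw [norm_prod, Fintype.prod_prod_type]
    dsimp only
    rw [← Finset.mul_prod_erase univ _ (Finset.mem_univ t)]
    have hrest : ∏ s ∈ univ.erase t, ∏ j : Fin 30, ‖Tsum (P s) (c s j) h‖ ≤
        (M ^ 30) ^ (κ - 1) := by
      calc ∏ s ∈ univ.erase t, ∏ j : Fin 30, ‖Tsum (P s) (c s j) h‖ ≤
          ∏ _s ∈ univ.erase t, M ^ 30 := by
            refine Finset.prod_le_prod (fun s _ => Finset.prod_nonneg fun j _ => norm_nonneg _)
              fun s _ => ?_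
            calc ∏ j : Fin 30, ‖Tsum (P s) (c s j) h‖ ≤ ∏ _j : Fin 30, M :=
                  Finset.prod_le_prod (fun j _ => norm_nonneg _) fun j _ => norm_Tsum_le _ _ _
              _ = M ^ 30 := by simp
        _ = (M ^ 30) ^ (κ - 1) := by
            rw [Finset.prod_const, Finset.card_erase_of_mem (Finset.mem_univ t), Finset.card_univ,
              Fintype.card_fin]
    have hκ : 1 ≤ κ := by
      have := t.pos
      omega
    calc (∏ j : Fin 30, ‖Tsum (P t) (c t j) h‖) *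
          ∏ s ∈ univ.erase t, ∏ j : Fin 30, ‖Tsum (P s) (c s j) h‖
          ≤ (M ^ 30 * (1 / (w : ℝ) ^ 3)) * (M ^ 30) ^ (κ - 1) := by
            gcongr
      _ = M ^ (30 * κ) * (1 / (w : ℝ) ^ 3) := by
            obtain ⟨k, rfl⟩ : ∃ k, κ = k + 1 := ⟨κ - 1, by omega⟩
            simp only [Nat.add_sub_cancel]
            ring
  -- contradiction
  have h0 : F 0 = -∑ h ∈ univ.erase (0 : ZMod v), F h := by
    rw [← Finset.add_sum_erase univ F (Finset.mem_univ (0 : ZMod v))] at hsum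
    linear_combination hsum
  have h1 : M ^ (30 * κ) ≤ ∑ h ∈ univ.erase (0 : ZMod v),
      M ^ (30 * κ) * (1 / ((addOrderOf h : ℝ)) ^ 3) := by
    calc M ^ (30 * κ) = ‖F 0‖ := by
          rw [hF0, Complex.norm_real, Real.norm_of_nonneg (by positivity)]
      _ = ‖∑ h ∈ univ.erase (0 : ZMod v), F h‖ := by rw [h0, norm_neg]
      _ ≤ ∑ h ∈ univ.erase (0 : ZMod v), ‖F h‖ := norm_sum_le _ _
      _ ≤ _ := Finset.sum_le_sum fun h hh => hFh h (Finset.mem_erase.1 hh).1
  rw [← Finset.mul_sum] at h1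
  have h2 := sum_inv_cube_lt_one v
  have h3 : 0 < M ^ (30 * κ) := by positivity
  nlinarith

/-- C4: if for every divisor `w > 1` of the odd number `v` one of the families has few collisions
mod `w`, then `v` divides a sum of divisors. -/
theorem fourier_core {n κ : ℕ} (P : Fin κ → Fin n → ℕ) (v : ℕ) (hv : Odd v)
    (hcoll : ∀ w, w ∣ v → 1 < w → ∃ t, (coll (P t) w : ℝ) ≤ 4 ^ n * (w : ℝ) ^ (-(3 / 5 : ℝ))) :
    ∃ A B : Fin κ → Fin 30 → Finset (Fin n),
      v ∣ ∑ t : Fin κ, ∑ j : Fin 30, 4 ^ (t.val * 30 + j.val) *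
        (xprod (P t) (A t j) * xprod (P t) (B t j)) := by
  refine fourier P (fun t j => 4 ^ (t.val * 30 + j.val)) hv.pos (fun t j => ?_) ?_
  · have h2 : Nat.Coprime 2 v := (Nat.coprime_two_left).2 hv
    have h4 : Nat.Coprime 4 v := by
      have : (4 : ℕ) = 2 ^ 2 := by norm_num
      rw [this]
      exact Nat.Coprime.pow_left 2 h2
    exact Nat.Coprime.pow_left _ h4
  · intro w hw h1
    obtain ⟨t, ht⟩ := hcoll w hw h1
    refine ⟨t, ?_⟩
    have hwpos : (0 : ℝ) < w := by exact_mod_cast (by omega : 0 < w)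
    have h5 : ((coll (P t) w : ℝ)) ^ 5 * (w : ℝ) ^ 3 ≤ (4 ^ n) ^ 5 := by
      calc ((coll (P t) w : ℝ)) ^ 5 * (w : ℝ) ^ 3
          ≤ (4 ^ n * (w : ℝ) ^ (-(3 / 5 : ℝ))) ^ 5 * (w : ℝ) ^ 3 := by gcongr
        _ = (4 ^ n) ^ 5 * (((w : ℝ) ^ (-(3 / 5 : ℝ))) ^ 5 * (w : ℝ) ^ 3) := by ring
        _ = (4 ^ n) ^ 5 := by
            rw [← Real.rpow_natCast ((w : ℝ) ^ (-(3 / 5 : ℝ))) 5, ← Real.rpow_mul hwpos.le,
              ← Real.rpow_natCast (w : ℝ) 3, ← Real.rpow_add hwpos]
            norm_num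
    exact_mod_cast h5

end Crest.Agent.R019
end

-- ▼ part R019/Core
section

set_option autoImplicit false

namespace Crest.Agent.R019

open Finset

/-- Few large primes cannot hit every term of an arithmetic progression. -/
theorem exists_avoid {ι : Type*} [Fintype ι] (p : ι → ℕ) (hp : ∀ i, (p i).Prime) (J : ℕ)
    (hJ : ∀ i, J ≤ p i) (hcard : Fintype.card ι < J) (v0 D : ℕ) (hcop : v0.Coprime D) :
    ∃ j < J, ∀ i, ¬ p i ∣ v0 + j * D := by
  classical
  by_contra hcon
  push Not at hcon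
  have hJ0 : 0 < J := lt_of_le_of_lt (Nat.zero_le _) hcard
  have hne : Nonempty ι := ⟨(hcon 0 hJ0).choose⟩
  choose! f hf using hcon
  have hc : (Finset.univ : Finset ι).card < (Finset.range J).card := by
    simpa using hcard
  obtain ⟨x, hx, y, hy, hxy, hfxy⟩ := Finset.exists_ne_map_eq_of_card_lt_of_maps_to
    (f := f) hc (fun a _ => Finset.mem_univ _)
  rw [Finset.mem_range] at hx hy
  have h1 := hf x hx
  have h2 := hf y hy
  rw [← hfxy] at h2
  have hprime := hp (f x)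
  -- `p` does not divide `D`
  have hD : ¬ p (f x) ∣ D := by
    intro hdvd
    have h3 : p (f x) ∣ v0 := (Nat.dvd_add_left (hdvd.mul_left x)).1 h1
    exact hprime.one_lt.ne' (Nat.dvd_one.1 (hcop ▸ Nat.dvd_gcd h3 hdvd))
  have hJp := hJ (f x)
  have key : ∀ a b : ℕ, a < b → b < J → p (f x) ∣ v0 + a * D → p (f x) ∣ v0 + b * D → False := by
    intro a b hab hb ha' hb'
    have h4 : p (f x) ∣ (v0 + b * D) - (v0 + a * D) := Nat.dvd_sub hb' ha'
    have h5 : (v0 + b * D) - (v0 + a * D) = (b - a) * D := by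
      rw [Nat.sub_mul]; omega
    rw [h5] at h4
    rcases hprime.dvd_mul.1 h4 with h6 | h6
    · have := Nat.le_of_dvd (by omega) h6
      omega
    · exact hD h6
  rcases lt_or_gt_of_ne hxy with h | h
  · exact key x y h hy h1 h2
  · exact key y x h hx h2 h1

/-- elementary growth estimate -/
theorem growth (m : ℕ) (hm : 17 ≤ m) : 10 * (200 * (m + 1)) + 2 ≤ 2 ^ m := by
  induction m, hm using Nat.le_induction with
  | base => norm_num
  | succ k hk ih =>
    rw [pow_succ]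
    omega

/-- The numerators that are allowed. -/
def Good (n : ℕ) (P : Fin 10 → Fin n → ℕ) (v : ℕ) : Prop :=
  0 < v ∧ v ≤ 2 ^ (n / 4) ∧ v.Coprime (primorial (n / 200)) ∧ ∀ t i, ¬ P t i ∣ v

theorem prime_le_of_dvd_good {n : ℕ} {P : Fin 10 → Fin n → ℕ} {v : ℕ} (hv : Good n P v) (p : ℕ)
    (hp : p.Prime) (hpv : p ∣ v) : n / 200 < p := by
  by_contra h
  push Not at h
  have h1 : p ∣ primorial (n / 200) := by
    unfold primorial
    exact Finset.dvd_prod_of_mem _ (by simp [hp]; omega)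
  exact hp.one_lt.ne' (Nat.dvd_one.1 (hv.2.2.1 ▸ Nat.dvd_gcd hpv h1))

theorem good_odd {n : ℕ} (hn : 400 ≤ n) {P : Fin 10 → Fin n → ℕ} {v : ℕ} (hv : Good n P v) :
    Odd v := by
  rw [← Nat.not_even_iff_odd, even_iff_two_dvd]
  intro h
  have := prime_le_of_dvd_good hv 2 Nat.prime_two h
  omega

theorem odd_xprod {n : ℕ} (P : Fin n → ℕ) (hP : ∀ i, Odd (P i)) (S : Finset (Fin n)) :
    Odd (xprod P S) := by
  unfold xprod
  exact Finset.prod_induction _ (fun x => Odd x) (fun a b ha hb => ha.mul hb) odd_one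
    (fun i _ => hP i)

theorem xprod_dvd {n : ℕ} (P : Fin n → ℕ) (S : Finset (Fin n)) : xprod P S ∣ ∏ i, P i :=
  Finset.prod_dvd_prod_of_subset _ _ _ (Finset.subset_univ S)

theorem padic_four_mul_odd (k u : ℕ) (hu : Odd u) : padicValNat 2 (4 ^ k * u) = 2 * k := by
  have hu0 : u ≠ 0 := by rintro rfl; exact absurd hu (by decide)
  rw [padicValNat.mul (by positivity) hu0, show (4 : ℕ) = 2 ^ 2 by norm_num, ← pow_mul,
    padicValNat.prime_pow, padicValNat.eq_zero_of_not_dvd hu.not_two_dvd_nat, add_zero]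

theorem rep_general {n κ m : ℕ} (P : Fin κ → Fin n → ℕ) (hPodd : ∀ t i, Odd (P t i)) (v : ℕ)
    (A B : Fin κ → Fin m → Finset (Fin n))
    (hAB : v ∣ ∑ t : Fin κ, ∑ j : Fin m, 4 ^ (t.val * m + j.val) *
        (xprod (P t) (A t j) * xprod (P t) (B t j))) :
    ∃ e : Fin (κ * m) → ℕ, (∀ k, e k ∣ 4 ^ (κ * m) * ∏ t, (∏ i, P t i) ^ 2) ∧
      (∀ k, padicValNat 2 (e k) = 2 * k) ∧ v ∣ ∑ k, e k := by
  refine ⟨fun k => 4 ^ k.val * (xprod (P (finProdFinEquiv.symm k).1)
    (A (finProdFinEquiv.symm k).1 (finProdFinEquiv.symm k).2) *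
    xprod (P (finProdFinEquiv.symm k).1)
    (B (finProdFinEquiv.symm k).1 (finProdFinEquiv.symm k).2)), ?_, ?_, ?_⟩
  · intro k
    refine Nat.mul_dvd_mul (pow_dvd_pow 4 k.2.le) ?_
    refine dvd_trans ?_ (Finset.dvd_prod_of_mem _
      (Finset.mem_univ (finProdFinEquiv.symm k).1))
    rw [sq]
    exact Nat.mul_dvd_mul (xprod_dvd _ _) (xprod_dvd _ _)
  · intro k
    exact padic_four_mul_odd _ _ ((odd_xprod _ (hPodd _) _).mul (odd_xprod _ (hPodd _) _))
  · have hsum : ∑ t : Fin κ, ∑ j : Fin m, 4 ^ (t.val * m + j.val) *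
        (xprod (P t) (A t j) * xprod (P t) (B t j)) =
        ∑ k : Fin (κ * m), 4 ^ k.val * (xprod (P (finProdFinEquiv.symm k).1)
        (A (finProdFinEquiv.symm k).1 (finProdFinEquiv.symm k).2) *
        xprod (P (finProdFinEquiv.symm k).1)
        (B (finProdFinEquiv.symm k).1 (finProdFinEquiv.symm k).2)) := by
      rw [← Fintype.sum_prod_type']
      refine Fintype.sum_equiv finProdFinEquiv _ _ fun q => ?_
      rw [Equiv.symm_apply_apply]
      congr 2
      simp only [finProdFinEquiv_apply_val]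
      ring
    rw [← hsum]
    exact hAB

/-- Density of good numbers. -/
theorem dense_general {n : ℕ} (P : Fin 10 → Fin n → ℕ) (hJle : 10 * n + 2 ≤ 2 ^ (n / 200))
    (hP0le : primorial (n / 200) ≤ 2 ^ (n / 100)) (hn : n / 200 + n / 100 ≤ n / 64)
    (havoid : ∀ v0 D : ℕ, v0.Coprime D → ∃ j < 10 * n + 1, ∀ t i, ¬ P t i ∣ v0 + j * D)
    (x : ℕ) (hx1 : 2 ^ (n / 64) ≤ x) (hx2 : x ≤ 2 ^ (n / 4)) :
    ∃ v, Good n P v ∧ v ≤ x ∧ x < v + 2 ^ (n / 64) := by
  have hP0pos : 0 < primorial (n / 200) := primorial_pos _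
  have hG : (10 * n + 2) * primorial (n / 200) ≤ 2 ^ (n / 64) := by
    calc (10 * n + 2) * primorial (n / 200) ≤ 2 ^ (n / 200) * 2 ^ (n / 100) :=
          Nat.mul_le_mul hJle hP0le
      _ = 2 ^ (n / 200 + n / 100) := by rw [pow_add]
      _ ≤ 2 ^ (n / 64) := Nat.pow_le_pow_right (by norm_num) hn
  have hxbig := hG.trans hx1
  unfold Good
  generalize primorial (n / 200) = P0 at *
  generalize 2 ^ (n / 64) = G at *
  generalize 2 ^ (n / 4) = Y at *
  -- start of the progression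
  obtain ⟨X, hX⟩ : ∃ X, X = x - 10 * n * P0 := ⟨_, rfl⟩
  have hmul : (10 * n + 2) * P0 = 10 * n * P0 + (P0 + P0) := by ring
  have hXbig : P0 + P0 ≤ X := by omega
  obtain ⟨v0, hv0⟩ : ∃ v0, v0 = P0 * ((X - 1) / P0) + 1 := ⟨_, rfl⟩
  have hv0le : v0 ≤ X := by
    have := Nat.mul_div_le (X - 1) P0
    omega
  have hv0gt : X < v0 + P0 := by
    have := Nat.lt_mul_div_succ (X - 1) hP0pos
    have h2 : P0 * ((X - 1) / P0 + 1) = P0 * ((X - 1) / P0) + P0 := by ring
    omega
  have hcop : v0.Coprime P0 := by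
    rw [hv0]
    simp
  obtain ⟨j, hj, hjP⟩ := havoid v0 P0 hcop
  have hjP0 : j * P0 ≤ 10 * n * P0 := Nat.mul_le_mul_right _ (by omega)
  refine ⟨v0 + j * P0, ⟨by omega, by omega, ?_, hjP⟩, by omega, by omega⟩
  simpa using hcop

/-- Final adjustment: `t * q - 1` can be made good. -/
theorem fin_general {n s : ℕ} (hs : 0 < s) (P : Fin 10 → Fin n → ℕ)
    (hsize : 4 ^ s * primorial (n / 200) * (10 * n + 1) * 2 ^ (n / 8) ≤ 2 ^ (n / 4))
    (havoid : ∀ v0 D : ℕ, v0.Coprime D → ∃ j < 10 * n + 1, ∀ t i, ¬ P t i ∣ v0 + j * D)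
    (q : ℕ) (hq1 : 1 ≤ q) (hq2 : q ≤ 2 ^ (n / 8)) :
    ∃ t, 0 < t ∧ 4 ^ s ∣ t ∧ 1 < t * q ∧ Good n P (t * q - 1) := by
  have hP0pos : 0 < primorial (n / 200) := primorial_pos _
  have hF : 4 ≤ 4 ^ s := by
    calc 4 = 4 ^ 1 := by norm_num
      _ ≤ 4 ^ s := Nat.pow_le_pow_right (by norm_num) hs
  unfold Good
  generalize primorial (n / 200) = P0 at *
  generalize 2 ^ (n / 8) = G at *
  generalize 2 ^ (n / 4) = Y at *
  generalize 4 ^ s = F at *
  have hFpos : 0 < F := by omega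
  have hpos : 0 < F * P0 * q := by positivity
  have hcop : (F * P0 * q - 1).Coprime (F * P0 * q) := by
    obtain ⟨m, hm⟩ : ∃ m, F * P0 * q = m + 1 := ⟨_, (Nat.succ_pred_eq_of_pos hpos).symm⟩
    rw [hm]
    simp
  obtain ⟨j, hj, hjP⟩ := havoid _ _ hcop
  have heq : F * P0 * (j + 1) * q - 1 = F * P0 * q - 1 + j * (F * P0 * q) := by
    have : F * P0 * (j + 1) * q = F * P0 * q + j * (F * P0 * q) := by ring
    omega
  have hbig : 4 ≤ F * P0 * (j + 1) * q := by
    calc 4 ≤ F := hF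
      _ ≤ F * (P0 * (j + 1) * q) := Nat.le_mul_of_pos_right _ (by positivity)
      _ = F * P0 * (j + 1) * q := by ring
  refine ⟨F * P0 * (j + 1), by positivity, ?_, by omega, by omega, ?_, ?_, ?_⟩
  · rw [mul_assoc]
    exact Dvd.intro _ rfl
  · refine (Nat.sub_le _ _).trans (le_trans ?_ hsize)
    gcongr
    omega
  · have hdvd : P0 ∣ F * P0 * (j + 1) * q := by
      refine Dvd.intro (F * (j + 1) * q) ?_
      ring
    obtain ⟨m, hm⟩ : ∃ m, F * P0 * (j + 1) * q = m + 1 :=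
      ⟨_, (Nat.succ_pred_eq_of_pos (by omega)).symm⟩
    rw [hm] at hdvd ⊢
    refine Nat.Coprime.coprime_dvd_right hdvd ?_
    simp
  · intro t i
    rw [heq]
    exact hjP t i

/-- Size of `Q`. -/
theorem size_general {n κ F : ℕ} (hn : 1 ≤ n) (P : Fin κ → Fin n → ℕ)
    (hPle : ∀ t i, P t i ≤ n ^ 60) (hF : F ≤ n ^ 600) :
    F * ∏ t, (∏ i, P t i) ^ 2 ≤ n ^ ((600 + 120 * κ) * n) := by
  have h1 : ∏ t, (∏ i, P t i) ^ 2 ≤ n ^ (120 * κ * n) := by
    calc ∏ t : Fin κ, (∏ i, P t i) ^ 2 ≤ ∏ _t : Fin κ, ((n ^ 60) ^ n) ^ 2 := by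
          refine Finset.prod_le_prod' fun t _ => ?_
          refine Nat.pow_le_pow_left ?_ 2
          calc ∏ i, P t i ≤ ∏ _i : Fin n, n ^ 60 := Finset.prod_le_prod' fun i _ => hPle t i
            _ = (n ^ 60) ^ n := by simp
      _ = n ^ (120 * κ * n) := by
          simp only [Finset.prod_const, Finset.card_univ, Fintype.card_fin, ← pow_mul]
          congr 1
          ring
  have h2 : F ≤ n ^ (600 * n) :=
    hF.trans (Nat.pow_le_pow_right hn (Nat.le_mul_of_pos_right 600 hn))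
  calc F * ∏ t, (∏ i, P t i) ^ 2 ≤ n ^ (600 * n) * n ^ (120 * κ * n) := Nat.mul_le_mul h2 h1
    _ = n ^ ((600 + 120 * κ) * n) := by rw [← pow_add]; congr 1; ring

/-- The number-theoretic core. -/
theorem core : ∃ s A n0 : ℕ, 0 < s ∧ ∀ n ≥ n0, ∃ (Q : ℕ) (good : ℕ → Prop),
    CoreData s n Q good ∧ Q ≤ n ^ (A * n) := by
  obtain ⟨n1, hn1⟩ := exists_families
  obtain ⟨s, hs⟩ : ∃ s, s = 10 * 30 := ⟨_, rfl⟩
  have hs0 : 0 < s := by omega
  refine ⟨s, 600 + 120 * 10, max n1 10000, hs0, fun n hn => ?_⟩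
  have hn1' : n1 ≤ n := le_trans (le_max_left _ _) hn
  have hnbig : 10000 ≤ n := le_trans (le_max_right _ _) hn
  obtain ⟨P, hP, hcoll⟩ := hn1 n hn1'
  have hPpr : ∀ t i, (P t i).Prime := fun t i => (hP t i).1
  have hPbig : ∀ t i, n ^ 2 < P t i := fun t i => (hP t i).2.1
  have hPle : ∀ t i, P t i ≤ n ^ 60 := fun t i => (hP t i).2.2
  have hnn : 10 * n + 1 ≤ n ^ 2 := by nlinarith
  have hPJ : ∀ t i, 10 * n + 1 ≤ P t i := fun t i => hnn.trans (hPbig t i).le
  have hPodd : ∀ t i, Odd (P t i) := fun t i =>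
    (hPpr t i).odd_of_ne_two (by have := hPJ t i; omega)
  have havoid : ∀ v0 D : ℕ, v0.Coprime D → ∃ j < 10 * n + 1, ∀ t i, ¬ P t i ∣ v0 + j * D := by
    intro v0 D hcop
    obtain ⟨j, hj, h⟩ := exists_avoid (fun q : Fin 10 × Fin n => P q.1 q.2)
      (fun q => hPpr q.1 q.2) (10 * n + 1) (fun q => hPJ q.1 q.2) (by simp) v0 D hcop
    exact ⟨j, hj, fun t i => h (t, i)⟩
  have hP0le : primorial (n / 200) ≤ 2 ^ (n / 100) := by
    refine (primorial_le_four_pow _).trans ?_
    rw [show (4 : ℕ) = 2 ^ 2 by norm_num, ← pow_mul]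
    exact Nat.pow_le_pow_right (by norm_num) (by omega)
  have hJle : 10 * n + 2 ≤ 2 ^ (n / 200) := by
    have := growth (n / 200) (by omega)
    omega
  have h4s : 4 ^ s = 2 ^ 600 := by
    rw [show (4 : ℕ) = 2 ^ 2 by norm_num, ← pow_mul, hs]
  refine ⟨4 ^ s * ∏ t, (∏ i, P t i) ^ 2, Good n P, ?_, ?_⟩
  · constructor
    · have h4 : 0 < 4 ^ s := pow_pos (by norm_num) s
      exact Nat.mul_pos h4 (Finset.prod_pos fun t _ => pow_pos
        (Finset.prod_pos fun i _ => (hPpr t i).pos) 2)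
    · intro v hv
      exact good_odd (by omega) hv
    · intro v hv
      obtain ⟨A, B, hAB⟩ := fourier_core P v (good_odd (by omega) hv) (fun w hw hw1 => by
        have hwv : w ≤ v := Nat.le_of_dvd hv.1 hw
        have hz : n / 200 ≤ w := by
          have h1 := prime_le_of_dvd_good hv w.minFac (Nat.minFac_prime (by omega))
            ((Nat.minFac_dvd w).trans hw)
          have h2 := Nat.minFac_le (n := w) (by omega)
          omega
        obtain ⟨t, ht⟩ := hcoll w hz (hwv.trans hv.2.1)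
        rcases ht with ⟨i, hi⟩ | ht
        · exact absurd (hi.trans hw) (hv.2.2.2 t i)
        · exact ⟨t, ht⟩)
      subst hs
      exact rep_general P hPodd v A B hAB
    · intro x hx1 hx2
      exact dense_general P hJle hP0le (by omega) havoid x hx1 hx2
    · intro q hq1 hq2
      refine fin_general hs0 P ?_ havoid q hq1 hq2
      rw [h4s]
      calc 2 ^ 600 * primorial (n / 200) * (10 * n + 1) * 2 ^ (n / 8)
          ≤ 2 ^ 600 * 2 ^ (n / 100) * 2 ^ (n / 200) * 2 ^ (n / 8) := by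
            gcongr
            omega
        _ = 2 ^ (600 + n / 100 + n / 200 + n / 8) := by rw [pow_add, pow_add, pow_add]
        _ ≤ 2 ^ (n / 4) := Nat.pow_le_pow_right (by norm_num) (by omega)
  · refine size_general (by omega) P hPle ?_
    rw [h4s]
    exact Nat.pow_le_pow_left (by omega) _

end Crest.Agent.R019
end

-- ▼ part R019/Greedy
section

set_option autoImplicit false

namespace Crest.Agent.R019

open Finset

/-- state of the greedy algorithm after `k` steps without stopping -/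
def GSt (a b T k : ℕ) : Prop :=
  ∃ (S : Finset ℕ) (c M w : ℕ), S.card ≤ k ∧ (∀ n ∈ S, 2 ≤ n ∧ n ≤ w) ∧ 0 < c ∧ c < b ∧
    0 < M ∧ M ≤ b * w ∧ c * w < M ∧ 1 ≤ w ∧ w < T ^ 2 ∧ (1 ≤ k → 2 ^ (2 ^ (k - 1)) ≤ w) ∧
    (∑ n ∈ S, (1 : ℚ) / n) + c / M = a / b

/-- final configuration of the greedy algorithm with at most `k` terms -/
def GFin (a b T k : ℕ) : Prop :=
  ∃ S : Finset ℕ, (∀ n ∈ S, 2 ≤ n) ∧ S.card ≤ k ∧
      ((∑ n ∈ S, (1 : ℚ) / n = a / b) ∨
        ∃ c M r : ℕ, 0 < c ∧ c < b ∧ 0 < M ∧ r ∣ M ∧ T ≤ r ∧ r ≤ b * T ^ 2 + 1 ∧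
          (∑ n ∈ S, (1 : ℚ) / n) + c / M = a / b ∧ ∀ n ∈ S, (c : ℚ) / M < 1 / n)

theorem GFin.mono {a b T k l : ℕ} (h : GFin a b T k) (hkl : k ≤ l) : GFin a b T l := by
  obtain ⟨S, h1, h2, h3⟩ := h
  exact ⟨S, h1, h2.trans hkl, h3⟩

/-- one greedy step. Either we are finished, or we get the next state; if `T ≤ w` we are
finished. -/
theorem GSt.step {a b T k : ℕ} (h : GSt a b T k) :
    GFin a b T (k + 1) ∨ (GSt a b T (k + 1) ∧ (1 ≤ k → 2 ^ (2 ^ (k - 1)) < T)) := by
  obtain ⟨S, c, M, w, hcard, hS, hc, hcb, hM, hMw, hcw, hw, hwT, hgrow, hsum⟩ := h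
  -- the next denominator
  obtain ⟨n, hn1, hn2⟩ : ∃ n : ℕ, M ≤ c * n ∧ c * (n - 1) < M := by
    refine ⟨(M + c - 1) / c, ?_, ?_⟩
    · have h1 := Nat.div_add_mod (M + c - 1) c
      have h2 := Nat.mod_lt (M + c - 1) hc
      omega
    · have h1 := Nat.div_mul_le_self (M + c - 1) c
      rw [Nat.mul_sub, mul_comm c]
      omega
  have hwn : w < n := by
    by_contra hcon
    have : c * n ≤ c * w := Nat.mul_le_mul_left c (not_lt.mp hcon)
    omega
  have hn2' : 2 ≤ n := by omega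
  have hnS : n ∉ S := fun hmem => by
    have := (hS n hmem).2
    omega
  have hnpos : (0 : ℚ) < n := by exact_mod_cast (by omega : 0 < n)
  have hMpos : (0 : ℚ) < M := by exact_mod_cast hM
  -- new numerator
  obtain ⟨c', hc'⟩ : ∃ c' : ℕ, c * n = M + c' := ⟨c * n - M, by omega⟩
  have hc'c : c' < c := by
    have : c * n = c * (n - 1) + c := by
      obtain ⟨m, rfl⟩ : ∃ m, n = m + 1 := ⟨n - 1, by omega⟩
      simp [Nat.mul_add]
    omega
  have hfrac : (c : ℚ) / M = 1 / n + c' / ((M * n : ℕ) : ℚ) := by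
    have h1 : (c : ℚ) * n = M + c' := by exact_mod_cast hc'
    push_cast
    field_simp
    linarith
  have hsum' : (∑ x ∈ insert n S, (1 : ℚ) / x) + c' / ((M * n : ℕ) : ℚ) = a / b := by
    rw [Finset.sum_insert hnS, ← hsum, hfrac]
    ring
  have hcard' : (insert n S).card ≤ k + 1 := by
    rw [Finset.card_insert_of_notMem hnS]
    omega
  have hS' : ∀ x ∈ insert n S, 2 ≤ x := by
    intro x hx
    rcases Finset.mem_insert.mp hx with rfl | hx
    · exact hn2'
    · exact (hS x hx).1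
  rcases Nat.eq_zero_or_pos c' with h0 | hpos
  · left
    refine ⟨insert n S, hS', hcard', Or.inl ?_⟩
    rw [← hsum', h0]
    simp
  have hkey : c' * (n - 1) < M := lt_of_le_of_lt (Nat.mul_le_mul_right _ hc'c.le) hn2
  have hkeyn : c' * n < M * n := by
    have h1 : c' ≤ c' * (n - 1) := Nat.le_mul_of_pos_right _ (by omega)
    exact Nat.mul_lt_mul_of_pos_right (by omega) (by omega)
  rcases le_or_gt T n with hTn | hnT
  · left
    refine ⟨insert n S, hS', hcard', Or.inr ⟨c', M * n, n, hpos, by omega,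
      Nat.mul_pos hM (by omega), Dvd.intro_left _ rfl, hTn, ?_, hsum', ?_⟩⟩
    · have h1 : n - 1 ≤ c * (n - 1) := Nat.le_mul_of_pos_left _ hc
      have h2 : b * w ≤ b * T ^ 2 := Nat.mul_le_mul_left b hwT.le
      omega
    · intro x hx
      have hxn : x ≤ n := by
        rcases Finset.mem_insert.mp hx with rfl | hx
        · exact le_rfl
        · have := (hS x hx).2
          omega
      have hx2 : 2 ≤ x := hS' x hx
      have hxpos : (0 : ℚ) < x := by exact_mod_cast (by omega : 0 < x)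
      rw [div_lt_div_iff₀ (by exact_mod_cast Nat.mul_pos hM (by omega)) hxpos]
      have h1 : c' * x ≤ c' * n := Nat.mul_le_mul_left _ hxn
      have h2 : c' * x < 1 * (M * n) := by omega
      exact_mod_cast h2
  · right
    refine ⟨⟨insert n S, c', M * n, n * (n - 1), hcard', ?_, hpos, by omega,
      Nat.mul_pos hM (by omega), ?_, ?_, ?_, ?_, ?_, hsum'⟩, ?_⟩
    · intro x hx
      refine ⟨hS' x hx, ?_⟩
      have hxn : x ≤ n := by
        rcases Finset.mem_insert.mp hx with rfl | hx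
        · exact le_rfl
        · have := (hS x hx).2
          omega
      exact hxn.trans (Nat.le_mul_of_pos_right _ (by omega))
    · calc M * n ≤ (b * w) * n := Nat.mul_le_mul_right _ hMw
        _ ≤ (b * (n - 1)) * n := Nat.mul_le_mul_right _ (Nat.mul_le_mul_left _ (by omega))
        _ = b * (n * (n - 1)) := by ring
    · calc c' * (n * (n - 1)) = (c' * (n - 1)) * n := by ring
        _ < M * n := Nat.mul_lt_mul_of_pos_right hkey (by omega)
    · exact Nat.mul_pos (by omega) (by omega)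
    · calc n * (n - 1) ≤ n * n := Nat.mul_le_mul_left _ (by omega)
        _ < T * T := Nat.mul_self_lt_mul_self hnT
        _ = T ^ 2 := by ring
    · intro _
      have hww : w * w ≤ n * (n - 1) := Nat.mul_le_mul hwn.le (by omega)
      rcases Nat.eq_zero_or_pos k with rfl | hk
      · simp only [Nat.zero_add, Nat.sub_self, pow_zero, pow_one]
        calc 2 ≤ n := hn2'
          _ ≤ n * (n - 1) := Nat.le_mul_of_pos_right _ (by omega)
      · have h1 := hgrow hk
        have h2 : k + 1 - 1 = (k - 1) + 1 := by omega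
        rw [h2, pow_succ 2 (k - 1), pow_mul, sq]
        exact (Nat.mul_le_mul h1 h1).trans hww
    · intro hk
      have := hgrow hk
      omega

/-- Greedy algorithm until the last denominator `r` is at least `T`. -/
theorem greedy (a b T : ℕ) (ha : 1 ≤ a) (hab : a < b) (hT : 2 ≤ T) :
    ∃ S : Finset ℕ, (∀ n ∈ S, 2 ≤ n) ∧ S.card ≤ Nat.log 2 (Nat.log 2 T) + 4 ∧
      ((∑ n ∈ S, (1 : ℚ) / n = a / b) ∨
        ∃ c M r : ℕ, 0 < c ∧ c < b ∧ 0 < M ∧ r ∣ M ∧ T ≤ r ∧ r ≤ b * T ^ 2 + 1 ∧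
          (∑ n ∈ S, (1 : ℚ) / n) + c / M = a / b ∧ ∀ n ∈ S, (c : ℚ) / M < 1 / n) := by
  set K := Nat.log 2 (Nat.log 2 T) + 2 with hK
  have h0 : GSt a b T 0 := by
    refine ⟨∅, a, b, 1, by simp, by simp, ha, hab, by omega, by omega, by omega, le_rfl, ?_,
      by simp, by simp⟩
    nlinarith
  have hind : ∀ k, GFin a b T k ∨ GSt a b T k := by
    intro k
    induction k with
    | zero => exact Or.inr h0
    | succ k ih =>
      rcases ih with ih | ih
      · exact Or.inl (ih.mono (Nat.le_succ k))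
      · rcases ih.step with h | h
        · exact Or.inl h
        · exact Or.inr h.1
  have hfin : GFin a b T (K + 1) := by
    rcases hind K with h | h
    · exact h.mono (Nat.le_succ K)
    · rcases h.step with h | h
      · exact h
      · exfalso
        have h1 := h.2 (by omega)
        have h2 : T < 2 ^ (Nat.log 2 T + 1) := Nat.lt_pow_succ_log_self (by norm_num) T
        have h3 : Nat.log 2 T < 2 ^ (Nat.log 2 (Nat.log 2 T) + 1) :=
          Nat.lt_pow_succ_log_self (by norm_num) _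
        have h4 : K - 1 = Nat.log 2 (Nat.log 2 T) + 1 := by omega
        rw [h4] at h1
        have h5 : 2 ^ (Nat.log 2 T + 1) ≤ 2 ^ (2 ^ (Nat.log 2 (Nat.log 2 T) + 1)) :=
          Nat.pow_le_pow_right (by norm_num) h3
        omega
  exact hfin.mono (by omega)

end Crest.Agent.R019
end

-- ▼ part R019/Range
section

set_option autoImplicit false

namespace Crest.Agent.R019

open Finset

lemma sum_mod_aux {s : ℕ} (hs : 0 < s) (e : Fin s → ℕ) (hpos : ∀ j, 0 < e j)
    (hval : ∀ j : Fin s, padicValNat 2 (e j) = 2 * j) :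
    e ⟨0, hs⟩ % 2 = 1 ∧ 4 ∣ (∑ j, e j) - e ⟨0, hs⟩ := by
  have h0 : e ⟨0, hs⟩ % 2 = 1 := by
    have h1 := hval ⟨0, hs⟩
    simp only [mul_zero] at h1
    rw [padicValNat.eq_zero_iff] at h1
    rcases h1 with h1 | h1 | h1
    · omega
    · have := hpos ⟨0, hs⟩; omega
    · omega
  refine ⟨h0, ?_⟩
  have hsplit : (∑ j, e j) = e ⟨0, hs⟩ + ∑ j ∈ (Finset.univ.erase (⟨0, hs⟩ : Fin s)), e j := by
    rw [Finset.add_sum_erase _ _ (Finset.mem_univ _)]
  rw [hsplit, Nat.add_sub_cancel_left]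
  apply Finset.dvd_sum
  intro j hj
  have hj0 : (j : ℕ) ≠ 0 := by
    intro h
    apply (Finset.mem_erase.mp hj).1
    exact Fin.ext h
  have : 2 ^ 2 ∣ e j := by
    have h2 : 2 ≤ padicValNat 2 (e j) := by rw [hval]; omega
    exact (pow_dvd_pow 2 h2).trans pow_padicValNat_dvd
  simpa using this

/-- One good numerator: `d * v / L` is a sum of `s` unit fractions with prescribed 2-adic
valuations. -/
theorem one_step {s n Q : ℕ} {good : ℕ → Prop} (h : CoreData s n Q good) (hs : 0 < s) (d v L : ℕ)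
    (hL : 0 < L) (hd : d * Q ∣ L) (hv : good v) :
    ∃ f : Fin s → ℕ, (∀ j, 0 < f j) ∧
      (∀ j, padicValNat 2 (f j) + 2 * j + padicValNat 2 d = padicValNat 2 L) ∧
      (∑ j, (1 : ℚ) / f j = (d * v : ℕ) / L) ∧
      (v % 4 = 3 → ∀ j, f j ≠ L / d) := by
  obtain ⟨e, heQ, hval, hdvd⟩ := h.good_rep v hv
  obtain ⟨m, rfl⟩ := hd
  have hQ := h.Qpos
  have hepos : ∀ j, 0 < e j := fun j => Nat.pos_of_dvd_of_pos (heQ j) hQ
  have hdpos : 0 < d := by
    rcases Nat.eq_zero_or_pos d with h | h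
    · simp [h] at hL
    · exact h
  have hmpos : 0 < m := by
    rcases Nat.eq_zero_or_pos m with h | h
    · simp [h] at hL
    · exact h
  obtain ⟨he0, h4⟩ := sum_mod_aux hs e hepos hval
  obtain ⟨τ, hτ⟩ := hdvd
  have hsumge : e ⟨0, hs⟩ ≤ ∑ j, e j :=
    Finset.single_le_sum (f := e) (fun _ _ => Nat.zero_le _) (Finset.mem_univ _)
  have hEodd : (∑ j, e j) % 2 = 1 := by omega
  have hodd : (v * τ) % 2 = 1 := by rw [← hτ]; exact hEodd
  have hvodd : Odd v := h.good_odd v hv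
  have hτodd : Odd τ := by
    have : Odd (v * τ) := Nat.odd_iff.mpr hodd
    exact (Nat.odd_mul.mp this).2
  have hτpos : 0 < τ := hτodd.pos
  have hvpos : 0 < v := hvodd.pos
  choose g hg using heQ
  have hgpos : ∀ j, 0 < g j := by
    intro j
    rcases Nat.eq_zero_or_pos (g j) with h | h
    · have := hg j; rw [h] at this; omega
    · exact h
  have hvτ : padicValNat 2 τ = 0 := by
    apply padicValNat.eq_zero_of_not_dvd
    intro h2
    have := Nat.odd_iff.mp hτodd
    omega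
  refine ⟨fun j => τ * g j * m, fun j => ?_, fun j => ?_, ?_, ?_⟩
  · exact Nat.mul_pos (Nat.mul_pos hτpos (hgpos j)) hmpos
  · have hp : Fact (Nat.Prime 2) := ⟨Nat.prime_two⟩
    rw [padicValNat.mul (Nat.mul_pos hτpos (hgpos j)).ne' hmpos.ne',
      padicValNat.mul hτpos.ne' (hgpos j).ne',
      padicValNat.mul (Nat.mul_pos hdpos hQ).ne' hmpos.ne',
      padicValNat.mul hdpos.ne' hQ.ne']
    have h1 : padicValNat 2 Q = 2 * j + padicValNat 2 (g j) := by
      rw [hg j, padicValNat.mul (hepos j).ne' (hgpos j).ne', hval]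
    rw [h1, hvτ]
    ring
  · have hsum : ∑ j, (1 : ℚ) / ((τ * g j * m : ℕ) : ℚ) = ∑ j, (e j : ℚ) / (τ * (Q * m)) := by
      apply Finset.sum_congr rfl
      intro j _
      have h1 : (Q : ℚ) = e j * g j := by rw [hg j]; push_cast; ring
      rw [h1]
      have a1 : (e j : ℚ) ≠ 0 := by exact_mod_cast (hepos j).ne'
      have a2 : (g j : ℚ) ≠ 0 := by exact_mod_cast (hgpos j).ne'
      have a3 : (τ : ℚ) ≠ 0 := by exact_mod_cast hτpos.ne'
      have a4 : (m : ℚ) ≠ 0 := by exact_mod_cast hmpos.ne'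
      push_cast
      field_simp
    rw [hsum, ← Finset.sum_div, ← Nat.cast_sum, hτ]
    have a2 : (Q : ℚ) ≠ 0 := by exact_mod_cast hQ.ne'
    have a3 : (τ : ℚ) ≠ 0 := by exact_mod_cast hτpos.ne'
    have a4 : (m : ℚ) ≠ 0 := by exact_mod_cast hmpos.ne'
    have a5 : (d : ℚ) ≠ 0 := by exact_mod_cast hdpos.ne'
    push_cast
    field_simp
  · intro hv4 j hj
    have hLd : d * Q * m / d = Q * m := by
      rw [mul_assoc]; exact Nat.mul_div_cancel_left _ hdpos
    simp only [hLd] at hj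
    have h1 : τ * g j = Q := Nat.eq_of_mul_eq_mul_right hmpos hj
    have h2 : τ = e j := by
      rw [hg j] at h1
      exact Nat.eq_of_mul_eq_mul_right (hgpos j) h1
    have h3 : (j : ℕ) = 0 := by
      have := hval j
      rw [← h2, hvτ] at this
      omega
    have hj0 : j = ⟨0, hs⟩ := Fin.ext h3
    subst hj0
    rw [hτ, ← h2] at h4
    have h5 : v * τ - τ = (v - 1) * τ := by rw [Nat.sub_mul, one_mul]
    rw [h5] at h4
    have h6 : Nat.Coprime 4 τ := by
      have : Nat.Coprime (2 ^ 2) τ := Nat.Coprime.pow_left 2 (Nat.coprime_two_left.mpr hτodd)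
      simpa using this
    have h7 : 4 ∣ v - 1 := h6.dvd_of_dvd_mul_right h4
    omega

lemma padic_two_scale (d0 D i : ℕ) (hd0 : 0 < d0) :
    padicValNat 2 (d0 * 2 ^ (D * i)) = padicValNat 2 d0 + D * i := by
  rw [padicValNat.mul hd0.ne' (by positivity), padicValNat.prime_pow]

/-- Reduction through the scales `d0 * 2^(D * i)`, `i < I`
(from `q < d_{i+1} G` to `q' < d_i G` with the step `d_i v`). -/
theorem range_lemma {s n Q : ℕ} {good : ℕ → Prop} (h : CoreData s n Q good) (hs : 0 < s)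
    (D : ℕ) (hD : 4 * s ≤ D) (hDn : D ≤ n / 16) (d0 : ℕ) (hd0 : 0 < d0) (I L : ℕ) (hL : 0 < L)
    (hdvd : d0 * 2 ^ (D * I) * Q ∣ L) (q : ℕ) (hq : q < d0 * 2 ^ (D * I) * 2 ^ (n / 64)) :
    ∃ (q' : ℕ) (S : Finset ℕ), q' < d0 * 2 ^ (n / 64) ∧ q' ≤ q ∧
      (∑ m ∈ S, (1 : ℚ) / m = ((q : ℚ) - q') / L) ∧ S.card ≤ s * I ∧
      ∀ m ∈ S, 0 < m ∧ ∃ i j, i < I ∧ j < s ∧
        padicValNat 2 m + 2 * j + D * i + padicValNat 2 d0 = padicValNat 2 L := by
  induction I generalizing q with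
  | zero =>
    refine ⟨q, ∅, by simpa using hq, le_rfl, by simp, by simp, by simp⟩
  | succ I ih =>
    have hdvd' : d0 * 2 ^ (D * I) * Q ∣ L := by
      refine dvd_trans ?_ hdvd
      apply Nat.mul_dvd_mul_right
      apply Nat.mul_dvd_mul_left
      exact pow_dvd_pow 2 (Nat.mul_le_mul_left D (Nat.le_succ I))
    set d := d0 * 2 ^ (D * I) with hd
    have hdpos : 0 < d := by positivity
    set G := 2 ^ (n / 64) with hG
    by_cases hx : q < d * G
    · obtain ⟨q', S, h1, h2, h3, h4, h5⟩ := ih hdvd' q hx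
      refine ⟨q', S, h1, h2, h3, h4.trans (Nat.mul_le_mul_left s (Nat.le_succ I)), ?_⟩
      intro m hm
      obtain ⟨h6, i, j, h7, h8, h9⟩ := h5 m hm
      exact ⟨h6, i, j, by omega, h8, h9⟩
    · have hGx : G ≤ q / d := by
        rw [Nat.le_div_iff_mul_le hdpos]
        rw [mul_comm]; exact not_lt.mp hx
      have hxle : q / d ≤ 2 ^ (n / 4) := by
        have h1 : q / d < 2 ^ D * G := by
          rw [Nat.div_lt_iff_lt_mul hdpos]
          calc q < d0 * 2 ^ (D * (I + 1)) * G := hq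
            _ = 2 ^ D * G * d := by rw [hd, mul_add, pow_add, mul_one]; ring
        have h2 : 2 ^ D * G ≤ 2 ^ (n / 4) := by
          rw [hG, ← pow_add]
          apply Nat.pow_le_pow_right (by norm_num)
          omega
        exact h1.le.trans h2
      obtain ⟨v, hv, hvx, hxv⟩ := h.dense (q / d) hGx hxle
      have hdv : d * v ≤ q := by
        calc d * v ≤ d * (q / d) := Nat.mul_le_mul_left d hvx
          _ ≤ q := Nat.mul_div_le q d
      have hq1 : q - d * v < d * G := by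
        have h1 : q < d * (q / d) + d := Nat.lt_mul_div_succ q hdpos |>.trans_eq (by ring)
        have h2 : d * (q / d) + d ≤ d * (v + G) := by
          have : q / d + 1 ≤ v + G := hxv
          calc d * (q / d) + d = d * (q / d + 1) := by ring
            _ ≤ d * (v + G) := Nat.mul_le_mul_left d this
        have h3 : d * (v + G) = d * v + d * G := by ring
        omega
      obtain ⟨q', S, h1, h2, h3, h4, h5⟩ := ih hdvd' (q - d * v) hq1
      obtain ⟨f, hf1, hf2, hf3, -⟩ := one_step h hs d v L hL hdvd' hv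
      have hdval : padicValNat 2 d = padicValNat 2 d0 + D * I := padic_two_scale d0 D I hd0
      have hfinj : Function.Injective f := by
        intro j j' hjj
        have e1 := hf2 j
        have e2 := hf2 j'
        rw [hjj] at e1
        apply Fin.ext
        omega
      have hdisj : Disjoint S (Finset.univ.image f) := by
        rw [Finset.disjoint_left]
        intro m hm hm'
        obtain ⟨j, -, rfl⟩ := Finset.mem_image.mp hm'
        obtain ⟨-, i', j', h7, h8, h9⟩ := h5 _ hm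
        have e1 := hf2 j
        rw [hdval] at e1
        have e2 : D * (i' + 1) ≤ D * I := Nat.mul_le_mul_left D h7
        have e3 : D * (i' + 1) = D * i' + D := by ring
        omega
      refine ⟨q', S ∪ Finset.univ.image f, h1, h2.trans (Nat.sub_le _ _), ?_, ?_, ?_⟩
      · rw [Finset.sum_union hdisj, h3, Finset.sum_image (fun a _ b _ hab => hfinj hab), hf3,
          Nat.cast_sub hdv]
        push_cast
        ring
      · calc (S ∪ Finset.univ.image f).card ≤ S.card + (Finset.univ.image f).card :=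
            Finset.card_union_le _ _
          _ ≤ s * I + s := by
            refine Nat.add_le_add h4 ?_
            calc (Finset.univ.image f).card ≤ (Finset.univ : Finset (Fin s)).card :=
                  Finset.card_image_le
              _ = s := by simp
          _ = s * (I + 1) := by ring
      · intro m hm
        rcases Finset.mem_union.mp hm with hm | hm
        · obtain ⟨h6, i, j, h7, h8, h9⟩ := h5 m hm
          exact ⟨h6, i, j, by omega, h8, h9⟩
        · obtain ⟨j, -, rfl⟩ := Finset.mem_image.mp hm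
          refine ⟨hf1 j, I, j, by omega, j.2, ?_⟩
          have e1 := hf2 j
          rw [hdval] at e1
          omega

/-- Everything after the greedy phase. -/
theorem tail_rep {s n Q : ℕ} {good : ℕ → Prop} (h : CoreData s n Q good) (hs : 0 < s)
    (hn : 64 * (4 * s) ≤ n) (c M r : ℕ) (hc : 0 < c) (hM : 0 < M) (hr : r ∣ M) (hcr : c * Q ≤ r) :
    ∃ S : Finset ℕ, (∀ m ∈ S, 0 < m) ∧ (∑ m ∈ S, (1 : ℚ) / m = (c : ℚ) / M) ∧
      S.card ≤ s * (2 * (Nat.log 2 r / (n / 16) + 4)) + s + 1 := by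
  classical
  have hQ := h.Qpos
  obtain ⟨D, hDdef⟩ : ∃ D, D = n / 16 := ⟨_, rfl⟩
  have hD16 : 16 * s ≤ D := by omega
  have hDpos : 0 < D := by omega
  have hrpos : 0 < r := Nat.pos_of_dvd_of_pos hr hM
  obtain ⟨a, ha⟩ : ∃ a, a = padicValNat 2 r := ⟨_, rfl⟩
  -- ctop
  obtain ⟨ct, e, hct, hae⟩ : ∃ ct e : ℕ, ct < D ∧ a + ct = D * e := by
    rcases Nat.eq_zero_or_pos (a % D) with h0 | h0
    · refine ⟨0, a / D, hDpos, ?_⟩
      have := Nat.div_add_mod a D
      omega
    · refine ⟨D - a % D, a / D + 1, by omega, ?_⟩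
      have := Nat.div_add_mod a D
      have h2 := Nat.mod_lt a hDpos
      rw [Nat.mul_add]
      omega
  obtain ⟨hh, hhdef⟩ : ∃ hh, hh = n / 32 := ⟨_, rfl⟩
  have hh1 : 2 * hh ≤ D := by omega
  have hh2 : D ≤ 2 * hh + 1 := by omega
  obtain ⟨I', hI'⟩ : ∃ I', I' = Nat.log 2 r / D + 2 := ⟨_, rfl⟩
  obtain ⟨k, hk⟩ : ∃ k, k = ct + D * (I' + 1) := ⟨_, rfl⟩
  obtain ⟨L, hL⟩ : ∃ L, L = 2 ^ k * Q * M := ⟨_, rfl⟩
  have hLpos : 0 < L := by rw [hL]; positivity
  obtain ⟨d0, hd0⟩ : ∃ d0, d0 = r * 2 ^ ct := ⟨_, rfl⟩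
  have hd0pos : 0 < d0 := by rw [hd0]; positivity
  have hvd0 : padicValNat 2 d0 = D * e := by
    rw [hd0, padicValNat.mul (by omega) (by positivity), padicValNat.prime_pow, ← ha, hae]
  have hG2 : 1 < 2 ^ (n / 64) := Nat.one_lt_two_pow (by omega)
  -- phase 1
  obtain ⟨q1, S1, hq1, hq1le, hS1sum, hS1card, hS1⟩ :=
    range_lemma h hs D (by omega) (by omega) d0 hd0pos (I' + 1) L hLpos
      (by
        rw [hd0, hL, hk, pow_add]
        obtain ⟨M', rfl⟩ := hr
        exact ⟨M', by ring⟩)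
      (c * 2 ^ k * Q)
      (by
        have h1 : c * 2 ^ k * Q ≤ d0 * 2 ^ (D * (I' + 1)) := by
          calc c * 2 ^ k * Q = (c * Q) * 2 ^ k := by ring
            _ ≤ r * 2 ^ k := Nat.mul_le_mul_right _ hcr
            _ = d0 * 2 ^ (D * (I' + 1)) := by rw [hd0, hk, pow_add]; ring
        have h2 : 0 < d0 * 2 ^ (D * (I' + 1)) := by positivity
        calc c * 2 ^ k * Q ≤ d0 * 2 ^ (D * (I' + 1)) := h1
          _ = d0 * 2 ^ (D * (I' + 1)) * 1 := by ring
          _ < d0 * 2 ^ (D * (I' + 1)) * 2 ^ (n / 64) := Nat.mul_lt_mul_of_pos_left hG2 h2)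
  -- bound for r * 2^ct
  have hrct : d0 ≤ 2 ^ (D * I') := by
    have h1 : r < 2 ^ (Nat.log 2 r + 1) := Nat.lt_pow_succ_log_self (by norm_num) r
    have h2 : Nat.log 2 r < D * (Nat.log 2 r / D + 1) := by
      have := Nat.div_add_mod (Nat.log 2 r) D
      have h3 := Nat.mod_lt (Nat.log 2 r) hDpos
      rw [Nat.mul_add]
      omega
    have h4 : Nat.log 2 r + 1 + ct ≤ D * I' := by
      rw [hI']
      have : D * (Nat.log 2 r / D + 2) = D * (Nat.log 2 r / D + 1) + D := by ring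
      omega
    calc d0 = r * 2 ^ ct := hd0
      _ ≤ 2 ^ (Nat.log 2 r + 1) * 2 ^ ct := Nat.mul_le_mul_right _ h1.le
      _ = 2 ^ (Nat.log 2 r + 1 + ct) := by rw [← pow_add]
      _ ≤ 2 ^ (D * I') := Nat.pow_le_pow_right (by norm_num) h4
  -- phase 2
  obtain ⟨q2, S2, hq2, hq2le, hS2sum, hS2card, hS2⟩ :=
    range_lemma h hs D (by omega) (by omega) (2 ^ hh) (by positivity) I' L hLpos
      (by
        have : hh + D * I' ≤ k := by rw [hk, Nat.mul_add]; omega
        obtain ⟨k', hk'⟩ := Nat.exists_eq_add_of_le this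
        rw [hL, hk', pow_add, pow_add]
        exact ⟨2 ^ k' * M, by ring⟩)
      q1
      (by
        calc q1 < d0 * 2 ^ (n / 64) := hq1
          _ ≤ 2 ^ (D * I') * 2 ^ (n / 64) := Nat.mul_le_mul_right _ hrct
          _ ≤ 2 ^ hh * 2 ^ (D * I') * 2 ^ (n / 64) := by
            apply Nat.mul_le_mul_right
            exact Nat.le_mul_of_pos_left _ (by positivity))
  have hvh : padicValNat 2 (2 ^ hh) = hh := padicValNat.prime_pow hh
  obtain ⟨V, hV⟩ : ∃ V, V = padicValNat 2 L := ⟨_, rfl⟩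
  have hdisj : Disjoint S1 S2 := by
    rw [Finset.disjoint_left]
    intro m hm1 hm2
    obtain ⟨_, i1, j1, hi1, hj1, hv1⟩ := hS1 m hm1
    obtain ⟨_, i2, j2, hi2, hj2, hv2⟩ := hS2 m hm2
    rw [hvd0] at hv1
    rw [hvh] at hv2
    have heq : 2 * j1 + D * (i1 + e) = 2 * j2 + hh + D * i2 := by
      rw [Nat.mul_add]; omega
    have hm : (2 * j1 + D * (i1 + e)) % D = (2 * j2 + hh + D * i2) % D := by rw [heq]
    rw [Nat.add_mul_mod_self_left, Nat.add_mul_mod_self_left, Nat.mod_eq_of_lt (by omega),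
      Nat.mod_eq_of_lt (by omega)] at hm
    omega
  have hsum12 : ∑ m ∈ S1 ∪ S2, (1 : ℚ) / m = ((c * 2 ^ k * Q : ℕ) - (q2 : ℚ)) / L := by
    rw [Finset.sum_union hdisj, hS1sum, hS2sum]; ring
  have hcard12 : (S1 ∪ S2).card ≤ s * (2 * (Nat.log 2 r / (n / 16) + 4)) := by
    calc (S1 ∪ S2).card ≤ S1.card + S2.card := Finset.card_union_le _ _
      _ ≤ s * (I' + 1) + s * I' := Nat.add_le_add hS1card hS2card
      _ = s * (2 * I' + 1) := by ring
      _ ≤ s * (2 * (Nat.log 2 r / (n / 16) + 4)) := by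
        apply Nat.mul_le_mul_left
        rw [← hDdef]
        omega
  have hval12 : ∀ m ∈ S1 ∪ S2, 0 < m ∧ padicValNat 2 m ≤ V := by
    intro m hm
    rcases Finset.mem_union.1 hm with hm | hm
    · obtain ⟨h0, i1, j1, hi1, hj1, hv1⟩ := hS1 m hm
      refine ⟨h0, ?_⟩
      omega
    · obtain ⟨h0, i1, j1, hi1, hj1, hv1⟩ := hS2 m hm
      refine ⟨h0, ?_⟩
      omega
  have hqL : ((c * 2 ^ k * Q : ℕ) : ℚ) / L = c / M := by
    have h1 : (M : ℚ) ≠ 0 := by positivity
    have h2 : (L : ℚ) ≠ 0 := by positivity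
    rw [div_eq_div_iff h2 h1, hL]
    push_cast
    ring
  rcases Nat.eq_zero_or_pos q2 with hz | hz
  · refine ⟨S1 ∪ S2, fun m hm => (hval12 m hm).1, ?_, by omega⟩
    rw [hsum12, hz, ← hqL]
    simp
  · have hq2' : q2 ≤ 2 ^ (n / 8) := by
      calc q2 ≤ 2 ^ hh * 2 ^ (n / 64) := hq2.le
        _ = 2 ^ (hh + n / 64) := by rw [pow_add]
        _ ≤ 2 ^ (n / 8) := Nat.pow_le_pow_right (by norm_num) (by omega)
    obtain ⟨t, ht0, ht4, ht1, htgood⟩ := h.fin q2 hz hq2'
    obtain ⟨f, hf0, hfv, hfsum, hfne⟩ := one_step h hs 1 (t * q2 - 1) (t * L) (by positivity)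
      (by
        rw [hL, one_mul]
        exact ⟨t * (2 ^ k * M), by ring⟩) htgood
    have hvt : 2 * s ≤ padicValNat 2 t := by
      rw [← padicValNat_dvd_iff_le (by omega : t ≠ 0)]
      rwa [pow_mul]
    have hvtL : padicValNat 2 (t * L) = padicValNat 2 t + V := by
      rw [padicValNat.mul (by omega) (by omega), hV]
    have hfv' : ∀ j, padicValNat 2 (f j) + 2 * (j : ℕ) = padicValNat 2 t + V := by
      intro j
      have := hfv j
      rw [padicValNat_one_right, hvtL] at this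
      omega
    have hfinj : Function.Injective f := by
      intro i j hij
      have h1 := hfv' i
      have h2 := hfv' j
      rw [hij] at h1
      apply Fin.ext
      omega
    have hmod : (t * q2 - 1) % 4 = 3 := by
      have h4 : 4 ∣ t * q2 := by
        apply Dvd.dvd.mul_right
        exact dvd_trans (dvd_pow_self 4 (by omega)) ht4
      omega
    have hne := hfne hmod
    rw [Nat.div_one] at hne
    have hnotin : t * L ∉ (Finset.univ.image f) := by
      intro hmem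
      obtain ⟨j, -, hj⟩ := Finset.mem_image.1 hmem
      exact hne j hj
    have hdisj3 : Disjoint (S1 ∪ S2) (insert (t * L) (Finset.univ.image f)) := by
      rw [Finset.disjoint_left]
      intro m hm1 hm2
      have h1 := (hval12 m hm1).2
      rcases Finset.mem_insert.1 hm2 with rfl | hm2
      · rw [hvtL] at h1
        omega
      · obtain ⟨j, -, rfl⟩ := Finset.mem_image.1 hm2
        have h2 := hfv' j
        have h3 := j.2
        omega
    refine ⟨(S1 ∪ S2) ∪ insert (t * L) (Finset.univ.image f), ?_, ?_, ?_⟩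
    · intro m hm
      rcases Finset.mem_union.1 hm with hm | hm
      · exact (hval12 m hm).1
      · rcases Finset.mem_insert.1 hm with rfl | hm2
        · positivity
        · obtain ⟨j, -, rfl⟩ := Finset.mem_image.1 hm2
          exact hf0 j
    · rw [Finset.sum_union hdisj3, Finset.sum_insert hnotin,
        Finset.sum_image (fun i _ j _ hij => hfinj hij), hsum12, hfsum, ← hqL]
      have h2 : (L : ℚ) ≠ 0 := by positivity
      have h3 : (t : ℚ) ≠ 0 := by positivity
      have h4 : ((1 * (t * q2 - 1) : ℕ) : ℚ) = (t : ℚ) * q2 - 1 := by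
        rw [one_mul, Nat.cast_sub (by omega)]
        push_cast
        ring
      rw [h4]
      push_cast
      field_simp
      ring
    · calc ((S1 ∪ S2) ∪ insert (t * L) (Finset.univ.image f)).card
          ≤ (S1 ∪ S2).card + (insert (t * L) (Finset.univ.image f)).card :=
            Finset.card_union_le _ _
        _ ≤ (S1 ∪ S2).card + ((Finset.univ.image f).card + 1) :=
            Nat.add_le_add_left (Finset.card_insert_le _ _) _
        _ ≤ (S1 ∪ S2).card + (s + 1) := by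
            have : (Finset.univ.image f).card ≤ s := by
              simpa using (Finset.card_image_le (s := (Finset.univ : Finset (Fin s))) (f := f))
            omega
        _ ≤ s * (2 * (Nat.log 2 r / (n / 16) + 4)) + s + 1 := by omega

end Crest.Agent.R019
end

-- ▼ part R019/Final

set_option autoImplicit false

namespace Crest.Agent.R019

open Finset

/-- The combination of the greedy phase and the tail phase, with an explicit natural bound. -/
theorem final_nat {s n Q A : ℕ} {good : ℕ → Prop} (h : CoreData s n Q good) (hs : 0 < s)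
    (hn : 64 * (4 * s) ≤ n) (hQ : Q ≤ n ^ (A * n)) (a b : ℕ) (ha : 1 ≤ a) (hab : a < b)
    (hb : b < 2 ^ n) :
    ∃ S : Finset ℕ, (∀ m ∈ S, 2 ≤ m) ∧
      S.card ≤ (A + 10 + s * (128 * (A + 2) + 10)) * (Nat.log 2 n + 1) ∧
      ∑ m ∈ S, (1 : ℚ) / (m : ℚ) = (a : ℚ) / (b : ℚ) := by
  have hb2 : 2 ≤ b := by omega
  have hn0 : 0 < n := by omega
  set l := Nat.log 2 n + 1 with hl
  have hl1 : 1 ≤ l := by omega
  have hnl : n < 2 ^ l := by
    rw [hl]; exact Nat.lt_pow_succ_log_self (by norm_num) n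
  have hQpos := h.Qpos
  set K := n * (1 + l * A) with hK
  have hQ2 : Q ≤ 2 ^ (n * (l * A)) := by
    calc Q ≤ n ^ (A * n) := hQ
      _ ≤ (2 ^ l) ^ (A * n) := Nat.pow_le_pow_left hnl.le _
      _ = 2 ^ (n * (l * A)) := by rw [← pow_mul]; congr 1; ring
  set T := b * Q with hT
  have hT2 : 2 ≤ T := by
    calc 2 ≤ b := hb2
      _ = b * 1 := by ring
      _ ≤ b * Q := Nat.mul_le_mul_left _ hQpos
  have hTK : T < 2 ^ K := by
    calc T = b * Q := rfl
      _ < 2 ^ n * Q := Nat.mul_lt_mul_of_pos_right hb hQpos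
      _ ≤ 2 ^ n * 2 ^ (n * (l * A)) := Nat.mul_le_mul_left _ hQ2
      _ = 2 ^ K := by rw [← pow_add, hK]; congr 1; ring
  have hlogT : Nat.log 2 T ≤ K := (Nat.log_lt_of_lt_pow (by omega) hTK).le
  have hK0 : 0 < K := by positivity
  have hKlt : K < 2 ^ (l * (A + 2)) := by
    have h1 : 1 + l * A < 2 ^ (1 + l * A) := Nat.lt_two_pow_self
    calc K = n * (1 + l * A) := rfl
      _ < 2 ^ l * 2 ^ (1 + l * A) := Nat.mul_lt_mul'' hnl h1
      _ = 2 ^ (l + (1 + l * A)) := by rw [← pow_add]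
      _ ≤ 2 ^ (l * (A + 2)) := Nat.pow_le_pow_right (by norm_num) (by nlinarith)
  have hloglogT : Nat.log 2 (Nat.log 2 T) ≤ l * (A + 2) := by
    have := Nat.log_mono_right (b := 2) hlogT
    exact this.trans (Nat.log_lt_of_lt_pow (by omega) hKlt).le
  obtain ⟨S, hS2, hScard, hS⟩ := greedy a b T ha hab hT2
  rcases hS with hS | ⟨c, M, r, hc, hcb, hM, hrM, hTr, hrb, hsum, hlt⟩
  · refine ⟨S, hS2, ?_, hS⟩
    calc S.card ≤ Nat.log 2 (Nat.log 2 T) + 4 := hScard
      _ ≤ l * (A + 2) + 4 * l := by omega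
      _ ≤ (A + 10 + s * (128 * (A + 2) + 10)) * l := by
          have e3 : (A + 10 + s * (128 * (A + 2) + 10)) * l =
            (l * (A + 2) + 4 * l) + (4 * l + s * (128 * (A + 2) + 10) * l) := by ring
          omega
  · have hcr : c * Q ≤ r := le_trans (Nat.mul_le_mul_right _ hcb.le) hTr
    obtain ⟨S', hS'0, hS'sum, hS'card⟩ := tail_rep h hs hn c M r hc hM hrM hcr
    have hMQ : (0 : ℚ) < M := by exact_mod_cast hM
    have hcQ : (0 : ℚ) < c := by exact_mod_cast hc
    have hle : ∀ m ∈ S', (1 : ℚ) / m ≤ c / M := by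
      intro m hm
      rw [← hS'sum]
      exact Finset.single_le_sum (f := fun m : ℕ => (1 : ℚ) / m)
        (fun i _ => by positivity) hm
    have hSnonneg : (0 : ℚ) ≤ ∑ n ∈ S, (1 : ℚ) / n := Finset.sum_nonneg (fun i _ => by positivity)
    have hab1 : (a : ℚ) / b < 1 := by
      rw [div_lt_one (by exact_mod_cast (by omega : 0 < b))]
      exact_mod_cast hab
    have hcM1 : (c : ℚ) / M < 1 := by linarith
    have hdisj : Disjoint S S' := by
      rw [Finset.disjoint_left]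
      intro m hm hm'
      have h1 := hlt m hm
      have h2 := hle m hm'
      linarith
    refine ⟨S ∪ S', ?_, ?_, ?_⟩
    · intro m hm
      rcases Finset.mem_union.mp hm with hm | hm
      · exact hS2 m hm
      · have h0 := hS'0 m hm
        have h1 := hle m hm
        by_contra hcon
        have : m = 1 := by omega
        subst this
        norm_num at h1
        linarith
    · have hlogr : Nat.log 2 r ≤ 2 * (n * (2 + l * A)) := by
        have h2 : r ≤ 2 ^ (2 * (n * (2 + l * A))) := by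
          have hT3 : T ^ 2 ≤ 2 ^ (2 * K) := by
            calc T ^ 2 ≤ (2 ^ K) ^ 2 := Nat.pow_le_pow_left hTK.le _
              _ = 2 ^ (2 * K) := by rw [← pow_mul]; congr 1; ring
          calc r ≤ b * T ^ 2 + 1 := hrb
            _ ≤ 2 ^ n * 2 ^ (2 * K) + 1 := by
                have := Nat.mul_le_mul hb.le hT3
                omega
            _ = 2 ^ (n + 2 * K) + 1 := by rw [pow_add]
            _ ≤ 2 ^ (n + 2 * K + 1) := by
                have : 1 ≤ 2 ^ (n + 2 * K) := Nat.one_le_two_pow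
                rw [pow_succ]; omega
            _ ≤ 2 ^ (2 * (n * (2 + l * A))) := by
                apply Nat.pow_le_pow_right (by norm_num)
                have e4 : 2 * (n * (2 + l * A)) = n + 2 * (n * (1 + l * A)) + n := by ring
                rw [hK, e4]; omega
        calc Nat.log 2 r ≤ Nat.log 2 (2 ^ (2 * (n * (2 + l * A)))) := Nat.log_mono_right h2
          _ = _ := Nat.log_pow (by norm_num) _
      have hdiv : Nat.log 2 r / (n / 16) ≤ 64 * (2 + l * A) := by
        have hn16 : 0 < n / 16 := by omega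
        have hn32 : n ≤ 32 * (n / 16) := by omega
        rw [Nat.div_le_iff_le_mul_add_pred hn16]
        have : 2 * (n * (2 + l * A)) ≤ n / 16 * (64 * (2 + l * A)) := by
          calc 2 * (n * (2 + l * A)) ≤ 2 * ((32 * (n / 16)) * (2 + l * A)) := by gcongr
            _ = n / 16 * (64 * (2 + l * A)) := by ring
        omega
      have hunion : (S ∪ S').card ≤ S.card + S'.card := Finset.card_union_le _ _
      have h3 : s * (2 * (Nat.log 2 r / (n / 16) + 4)) ≤ s * (2 * (64 * (2 + l * A) + 4)) := by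
        gcongr
      have h4 : s * (2 * (64 * (2 + l * A) + 4)) ≤ s * (128 * (A + 2) + 8) * l := by
        have : 2 * (64 * (2 + l * A) + 4) ≤ (128 * (A + 2) + 8) * l := by
          have e1 : (128 * (A + 2) + 8) * l = 128 * (l * A) + 264 * l := by ring
          rw [e1]; omega
        calc s * (2 * (64 * (2 + l * A) + 4)) ≤ s * ((128 * (A + 2) + 8) * l) := by gcongr
          _ = _ := by ring
      have h5 : s ≤ s * l := Nat.le_mul_of_pos_right s hl1
      calc (S ∪ S').card ≤ S.card + S'.card := hunion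
        _ ≤ (l * (A + 2) + 4) + (s * (128 * (A + 2) + 8) * l + s + 1) := by omega
        _ ≤ (l * (A + 2) + 4 * l) + (s * (128 * (A + 2) + 8) * l + s * l + l) := by omega
        _ ≤ (A + 10 + s * (128 * (A + 2) + 10)) * l := by
            have e2 : (A + 10 + s * (128 * (A + 2) + 10)) * l =
              (l * (A + 2) + 4 * l) + (s * (128 * (A + 2) + 8) * l + s * l + l) + (3 * l + s * l)
                := by ring
            omega
    · rw [Finset.sum_union hdisj, hS'sum, hsum]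

theorem final :
    ∃ C : ℝ, ∃ b₀ : ℕ, ∀ (a b : ℕ), b₀ ≤ b → 1 ≤ a → a < b →
      ∃ S : Finset ℕ, (∀ n ∈ S, 2 ≤ n) ∧ (S.card : ℝ) ≤ C * Real.log (Real.log (b : ℝ)) ∧
        ∑ n ∈ S, (1 : ℚ) / (n : ℚ) = (a : ℚ) / (b : ℚ) := by
  obtain ⟨s, A, n0, hs, hcore⟩ := core
  set C1 := A + 10 + s * (128 * (A + 2) + 10) with hC1
  refine ⟨7 * C1, max (2 ^ (n0 + 64 * (4 * s))) (2 ^ 100), ?_⟩
  intro a b hb ha hab
  have hb1 : 2 ^ (n0 + 64 * (4 * s)) ≤ b := le_trans (le_max_left _ _) hb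
  have hb2 : 2 ^ 100 ≤ b := le_trans (le_max_right _ _) hb
  have hb0 : b ≠ 0 := by omega
  set n := Nat.log 2 b + 1 with hn
  have hbn : b < 2 ^ n := Nat.lt_pow_succ_log_self (by norm_num) b
  have hnn : n0 + 64 * (4 * s) ≤ n := by
    have : n0 + 64 * (4 * s) ≤ Nat.log 2 b := Nat.le_log_of_pow_le (by norm_num) hb1
    omega
  obtain ⟨Q, good, hcd, hQ⟩ := hcore n (by omega)
  obtain ⟨S, hS2, hScard, hSsum⟩ := final_nat hcd hs (by omega) hQ a b ha hab hbn
  refine ⟨S, hS2, ?_, hSsum⟩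
  -- real estimates
  have hbR : (2 : ℝ) ^ 100 ≤ b := by exact_mod_cast hb2
  have hbpos : (0 : ℝ) < b := lt_of_lt_of_le (by positivity) hbR
  have hlog2 : (1 / 2 : ℝ) ≤ Real.log 2 := by
    have := Real.log_two_gt_d9; linarith
  have hlogb : (50 : ℝ) ≤ Real.log b := by
    have h1 : Real.log ((2 : ℝ) ^ 100) ≤ Real.log b := Real.log_le_log (by positivity) hbR
    rw [Real.log_pow] at h1
    push_cast at h1
    linarith
  have hnb : (n : ℝ) ≤ 4 * Real.log b := by
    have h1 : ((Nat.log 2 b : ℕ) : ℝ) * Real.log 2 ≤ Real.log b := by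
      rw [← Real.log_pow]
      apply Real.log_le_log (by positivity)
      exact_mod_cast Nat.pow_log_le_self 2 hb0
    have h2 : ((Nat.log 2 b : ℕ) : ℝ) * (1 / 2) ≤ ((Nat.log 2 b : ℕ) : ℝ) * Real.log 2 := by
      gcongr
    have h3 : (n : ℝ) = (Nat.log 2 b : ℕ) + 1 := by rw [hn]; push_cast; ring
    rw [h3]
    linarith
  have hn0 : n ≠ 0 := by omega
  have hnpos : (0 : ℝ) < n := by exact_mod_cast Nat.pos_of_ne_zero hn0
  have hloglog : (2 : ℝ) ≤ Real.log (Real.log b) := by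
    rw [Real.le_log_iff_exp_le (by linarith)]
    have h1 : Real.exp 2 ≤ 50 := by
      have h2 : Real.exp 2 = Real.exp 1 * Real.exp 1 := by rw [← Real.exp_add]; norm_num
      rw [h2]
      have := Real.exp_one_lt_d9
      have h3 := Real.exp_pos 1
      nlinarith
    linarith
  have hl : ((Nat.log 2 n : ℕ) : ℝ) + 1 ≤ 7 * Real.log (Real.log b) := by
    have h1 : ((Nat.log 2 n : ℕ) : ℝ) * Real.log 2 ≤ Real.log n := by
      rw [← Real.log_pow]
      apply Real.log_le_log (by positivity)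
      exact_mod_cast Nat.pow_log_le_self 2 hn0
    have h2 : ((Nat.log 2 n : ℕ) : ℝ) * (1 / 2) ≤ ((Nat.log 2 n : ℕ) : ℝ) * Real.log 2 := by
      gcongr
    have h3 : Real.log n ≤ Real.log (4 * Real.log b) := Real.log_le_log hnpos hnb
    rw [Real.log_mul (by norm_num) (by linarith)] at h3
    have h4 : Real.log 4 ≤ 2 * 1 := by
      have : (4 : ℝ) = 2 ^ 2 := by norm_num
      rw [this, Real.log_pow]
      have := Real.log_two_lt_d9
      push_cast
      linarith
    linarith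
  have hC1nn : (0 : ℝ) ≤ (C1 : ℝ) := by positivity
  calc (S.card : ℝ) ≤ ((C1 * (Nat.log 2 n + 1) : ℕ) : ℝ) := by exact_mod_cast hScard
    _ = C1 * (((Nat.log 2 n : ℕ) : ℝ) + 1) := by push_cast; ring
    _ ≤ C1 * (7 * Real.log (Real.log b)) := by gcongr
    _ = 7 * C1 * Real.log (Real.log b) := by ring

end Crest.Agent.R019
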